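import Vale.Agent.P283R.Tl.St
import Vale.Agent.P283R.Wd.Gen70
import Vale.Agent.P283R.Wc.Pdx31
import Vale.Agent.P283R.Pq.All

/-!
# P283R, block TL: generators and pages
-/

set_option linter.all false

noncomputable section

section

open Set

namespace Vale.Agent.P283R.Tl

open Vale.Agent.P287D Vale.Agent.P297Z Vale.Agent.P283M Vale.Agent.P283R.To
open Cx (Sp dg)
open Pq (Hm Hg tot Tv At cz lam mu fr Pg hm od Hz)
open Wc (Dr Kt)
open Wd (Sb sb)
open Wd.G70

/-- **GEN** -/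
theorem gen8 : GEN := by
  intro K _ _ c r ρ s y u T J κ f k e h hod un ⟨Em, hE, hf⟩ ei er
  classical
  obtain ⟨f1, f2, f3, -, -, f6, -, -, -, f10, -⟩ := Pq.fac c _ K s _ h.rat
  have ind := (Pq.B25.tower h.rat).2.1.ind
  let φ := IsScalarTower.toAlgHom ℂ (Sb (fr s y)) K
  let s₁ : Fin c → Sb (fr s y) := fun i => sb _ (Fin.castAdd r i)
  let y₁ : Fin r → Sb (fr s y) := fun i => sb _ (Fin.natAdd c i)
  have hs : (fun i => φ (s₁ i)) = s := funext fun i => Fin.append_left s y i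
  have hy : (fun i => φ (y₁ i)) = y := funext fun i => Fin.append_right s y i
  have y0 : ∀ i, y i ≠ 0 := fun i => by
    have := h.rat.ind.ne_zero (Fin.natAdd c (Fin.castAdd ρ i))
    rwa [fr, Fin.append_right, Fin.append_left] at this
  let F : Pg c →₀ ℤ := ∑ p ∈ Em, Finsupp.single p 1
  have hF : ∀ p, F p = if p ∈ Em then 1 else 0 := fun p => by
    simp [F, Finsupp.finsetSum_apply, Finsupp.single_apply]
  let H : (Pg c →₀ ℤ) × (Fin r → ℤ) → K := fun q => hm s (Fin.append y u) q.1 (Fin.append q.2 0)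
  have H0 : ∀ q, H q ≠ 0 := fun q => (f2 _ _).1
  have Ha : ∀ q q', H (q + q') = H q * H q' := fun q q' => by
    rw [← f3]
    refine congrArg (hm s _ _) (funext fun j => ?_)
    refine Fin.addCases (fun i => ?_) (fun i => ?_) j <;> simp
  have Hy : ∀ q, H q = hm s y q.1 q.2 := fun q => by
    simp only [H, hm, mon, Fin.prod_univ_add, Fin.append_left, Fin.append_right, Pi.zero_apply,
      zpow_zero, Finset.prod_const_one, mul_one]
  have Hφ : ∀ q, φ (hm s₁ y₁ q.1 q.2) = H q := fun q => by rw [hm_map, hs, hy, Hy]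
  have Hs : ∀ {I : Type} [Fintype I] (g : I → _) (n : I → ℕ),
      H (∑ j, n j • g j) = ∏ j, H (g j) ^ n j := fun g n => by
    simpa only [natCast_zsmul, mon, zpow_natCast] using hom_mon H H0 Ha g fun j => n j
  have Hf : H (F, 0) = f := by
    have := Hs (fun p : Em => ((Finsupp.single p.1 1, 0) : (Pg c →₀ ℤ) × (Fin r → ℤ))) fun _ => 1
    simp only [one_smul, pow_one] at this
    rw [hf, ← Finset.prod_coe_sort Em]
    refine Eq.trans (congrArg H (Prod.ext ?_ ?_)) (this.trans (Finset.prod_congr rfl fun p _ => ?_))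
    · rw [Prod.fst_sum]
      exact (Finset.sum_coe_sort Em fun p => Finsupp.single p (1 : ℤ)).symm
    · simp [Prod.snd_sum]
    · simp [Hy, hm, mon]
  have Ho : ∀ P ∈ T, ∀ p ∉ J, At s P (some p) → ∀ q, P.ord (H q) = q.1 p := fun P a p v z q => by
    rw [f6 _ _ _ _ z, (hod.od P a p v z).1, Fin.sum_univ_add]
    simp [un P a p v z _ (y0 _), od]
  have ke : ∀ i, e i ∈ Kt s (Fin.append y u) T J := fun i => er ▸ mem_range_self i
  have h1 : ∀ i, Dr e (e i) = Pi.single i 1 := fun i => funext fun j => by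
    simp only [Dr, ei.eq_iff, Pi.single_apply, eq_comm]
  have h2 : ∀ P ∈ T, (∃ i, e i = P) ∨ Dr e P = 0 ∧
      (Tv s (Fin.append y u) P ∨ ∃ p ∉ J, At s P (some p)) := fun P a => by
    by_cases z : P ∈ range e
    · exact .inl z
    refine .inr ⟨funext fun i => if_neg fun w => z ⟨i, w.symm⟩, ?_⟩
    by_contra w
    exact z (er ▸ ⟨a, fun t => w (.inl t), fun p v t => w (.inr ⟨p, v, t⟩)⟩)
  let g₀ : J ⊕ Fin r → (Pg c →₀ ℤ) × (Fin r → ℤ) :=
    Sum.elim (fun p => (Finsupp.single p.1 1, 0)) fun i => (0, Pi.single i 1)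
  let g₂ : Option ((J ⊕ Fin r) ⊕ (J ⊕ Fin r)) → (Pg c →₀ ℤ) × (Fin r → ℤ) :=
    fun j => j.elim (-(F, 0)) (Sum.elim g₀ fun x => -g₀ x)
  let g : Fin k ⊕ Option ((J ⊕ Fin r) ⊕ (J ⊕ Fin r)) → (Pg c →₀ ℤ) × (Fin r → ℤ) :=
    Sum.elim 0 g₂
  let τ : Fin k ⊕ Option ((J ⊕ Fin r) ⊕ (J ⊕ Fin r)) → Fin k → ℤ :=
    Sum.elim (fun i => Pi.single i 1) 0
  have τ0 : ∀ j i, 0 ≤ τ j i := by
    rintro (j | j) i
    · simp only [τ, Sum.elim_inl, Pi.single_apply]
      split_ifs <;> simp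
    · exact le_rfl
  have gM : ∀ j, ∃ a : ℕ, ∀ p ∉ J, (g j).1 p + a * F p = 0 := by
    have k0 : ∀ x, ∀ p ∉ J, (g₀ x).1 p = 0 := by
      rintro (x | x) p v
      · exact Finsupp.single_eq_of_ne fun w => v (w ▸ x.2)
      · rfl
    rintro (j | _ | x | x)
    · exact ⟨0, fun p _ => by simp [g]⟩
    · exact ⟨1, fun p _ => by simp [g, g₂]⟩
    · exact ⟨0, fun p v => by simp [g, g₂, k0 x p v]⟩
    · exact ⟨0, fun p v => by simp [g, g₂, k0 x p v]⟩
  have cl : ∀ (n : Pg c →₀ ℤ) (m : Fin r → ℤ) (N : ℕ), (∀ p ∉ J, n p + N * F p = 0) →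
      (n, m) ∈ AddSubmonoid.closure (range g₂) := fun n m N a => by
    have k1 : ∀ x (z : ℤ), z • g₀ x ∈ AddSubmonoid.closure (range g₂) := fun x z => by
      obtain ⟨l, rfl | rfl⟩ := Int.eq_nat_or_neg z
      · rw [natCast_zsmul]
        exact nsmul_mem (AddSubmonoid.subset_closure (mem_range_self (f := g₂) (some (.inl x)))) _
      · rw [neg_smul, ← smul_neg, natCast_zsmul]
        exact nsmul_mem (AddSubmonoid.subset_closure (mem_range_self (f := g₂) (some (.inr x)))) _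
    have : (n, m) = ∑ x, (Sum.elim (fun p : J => n p + N * F p) m x) • g₀ x + N • -(F, 0) := by
      refine Prod.ext (Finsupp.ext fun p => ?_) (funext fun i => ?_)
      · have t : ∑ x : J, (n x.1 + N * F x.1) * (Finsupp.single x.1 (1 : ℤ)) p =
            n p + N * F p := by
          rw [Finset.sum_coe_sort J fun x => (n x + N * F x) * (Finsupp.single x (1 : ℤ)) p]
          by_cases v : p ∈ J
          · simp [Finsupp.single_apply, v]
          · simp [Finsupp.single_apply, v, a p v]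
        simp only [Prod.fst_sum, Fintype.sum_sum_type, g₀, Sum.elim_inl, Sum.elim_inr,
          Prod.smul_fst, Prod.fst_add, Finsupp.add_apply, Prod.fst_neg, Finsupp.neg_apply,
          Finsupp.finsetSum_apply, Finsupp.smul_apply, smul_eq_mul, t, Finsupp.zero_apply,
          mul_zero, Finset.sum_const_zero, nsmul_eq_mul]
        ring
      · simp [Prod.snd_sum, Fintype.sum_sum_type, g₀, Finset.sum_apply, Pi.single_apply]
    rw [this]
    exact add_mem (sum_mem fun x _ => k1 x _)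
      (nsmul_mem (AddSubmonoid.subset_closure (mem_range_self (f := g₂) none)) _)
  let q := (Fintype.equivFin (Fin k ⊕ Option ((J ⊕ Fin r) ⊕ (J ⊕ Fin r)))).symm
  let a' := fun j i => -(e i).ord (H (g (q j))) + τ (q j) i
  have key : ∀ (n : Pg c →₀ ℤ) (m : Fin r → ℤ) (N : ℕ) (δ : Fin k → ℤ),
      (∀ p ∉ J, n p + N * F p = 0) → (∀ i, 0 ≤ (e i).ord (H (n, m)) + δ i) →
      H (n, m) ∈ Sp (fun j => H (g (q j))) a' δ := fun n m N δ a b => by
    obtain ⟨ν, hν⟩ := AddSubmonoid.mem_closure_range_iff_of_fintype.1 (cl n m N a)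
    let ν' := Sum.elim (fun i => ((e i).ord (H (n, m)) + δ i).toNat) ν
    have e1 : H (n, m) = ∏ j, H (g j) ^ ν' j := by
      rw [← Hs, hν]
      simp [Fintype.sum_sum_type, g, ν']
    refine Submodule.subset_span ⟨fun j => ν' (q j), funext fun i => ?_,
      (q.prod_comp fun j => H (g j) ^ ν' j).trans e1.symm⟩
    have e2 : (e i).ord (H (n, m)) = ∑ j, ν' j * (e i).ord (H (g j)) := by
      rw [e1, Pl.ord_prod _ _ fun j _ => pow_ne_zero _ (H0 _)]
      simp only [Pl.ord_pow]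
    have e3 : ∑ j, (ν' j : ℤ) * τ j i = (e i).ord (H (n, m)) + δ i := by
      simp [Fintype.sum_sum_type, τ, ν', Pi.single_apply, b i]
    rw [dg, q.sum_comp fun j => (ν' j : ℤ) * (-(e i).ord (H (g j)) + τ j i)]
    simp only [mul_add, mul_neg, Finset.sum_add_distrib, Finset.sum_neg_distrib]
    rw [← e2, e3]
    ring
  have eT : (fun j => φ (hm s₁ y₁ (g (q j)).1 (g (q j)).2)) = fun j => H (g (q j)) :=
    funext fun j => Hφ _
  refine ⟨_, fun j => hm s₁ y₁ (g (q j)).1 (g (q j)).2, a', by simp; omega,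
    fun j z => H0 (g (q j)) (by rw [← Hφ, z, map_zero]), fun n => ?_, fun δ z z0 => ?_⟩
  · choose a ha using gM
    refine ⟨1, (∑ j, n j • g (q j)).1 + (∑ j, n j * a (q j)) • F, (∑ j, n j • g (q j)).2,
      ∑ j, n j * a (q j), one_ne_zero, fun p hp => by_contra fun v =>
        Finsupp.mem_support_iff.1 hp ?_, ?_⟩
    · simp only [Prod.fst_sum, Finsupp.add_apply, Finsupp.finsetSum_apply, Prod.smul_fst,
        Finsupp.smul_apply, nsmul_eq_mul, Nat.cast_sum, Finset.sum_mul, ← Finset.sum_add_distrib]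
      exact Finset.sum_eq_zero fun j _ => by
        rw [Nat.cast_mul, mul_assoc, ← mul_add, ha _ p v, mul_zero]
    · have e1 : ∀ N : ℕ, H (N • (F, 0)) = f ^ N := fun N => by
        simpa [Hf] using Hs (fun _ : Unit => ((F, 0) : (Pg c →₀ ℤ) × (Fin r → ℤ))) fun _ => N
      rw [one_smul, eq_div_iff (e1 _ ▸ H0 _), ← e1]
      refine Eq.trans (congrArg (· * _) ?_) ((Ha (∑ j, n j • g (q j)) _).symm.trans
        ((Hy _).trans (by simp)))
      rw [Hs]
      exact Finset.prod_congr rfl fun j _ => congrArg (· ^ n j) (Hφ _)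
  have z0' : φ z ≠ 0 := (map_ne_zero φ).2 z0
  rw [← mem_map φ, eT]
  refine ⟨fun w => sp_sec (pl := id) (w := (· ∈ T)) (Dr e) (fun j => H0 _) (fun j P a => ?_) w z0',
    fun w => ?_⟩
  · rcases h2 P a with ⟨i, rfl⟩ | ⟨v, v'⟩
    · rw [h1, dotProduct_single_one]
      have := τ0 (q j) i
      simp only [a', id]
      omega
    rw [v, dotProduct_zero, add_zero]
    rcases v' with v' | ⟨p, v', t⟩
    · exact (v' _ _ (f2 _ _).2 (H0 _)).ge
    · obtain ⟨b, hb⟩ := gM (q j)
      have := hb p v'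
      rw [hF, if_neg fun x => ((hE p).1 x).2 ⟨P, a, t⟩, mul_zero, add_zero] at this
      exact ((Ho P a p v' t _).trans this).ge
  have tv : ∀ P ∈ T, Tv s (Fin.append y u) P → Dr e P = 0 := fun P a v =>
    (h2 P a).elim (fun ⟨i, t⟩ => ((ke i).2.1 (t ▸ v)).elim) And.left
  obtain ⟨G, hG, eG⟩ := h.lau _ z0' fun P a v => by
    have := w P a
    rwa [tv P a v, dotProduct_zero, add_zero] at this
  choose β₀ n₀ β0 _ _ hn₀ en₀ using fun i => f10 (.X i) (MvPolynomial.X_ne_zero i)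
  have ap0 : ∀ n, H (n, 0) = hm s (Fin.append y u) n 0 := fun n =>
    congrArg (hm s _ n) (funext fun j => by
      refine Fin.addCases (fun i => ?_) (fun i => ?_) j <;> simp)
  have cmp : ∀ v, ∃ ζ : Sb (fr s y), G v = ζ • mon u (fun i => v (Fin.natAdd r i)) ∧
      ((fun i => v (Fin.natAdd r i)) = 0 → φ ζ ∈ Sp (fun j => H (g (q j))) a' δ) := fun v => by
    rcases eq_or_ne (G v) 0 with G0 | G0
    · exact ⟨0, by rw [G0, zero_smul], fun _ => by rw [map_zero]; exact zero_mem _⟩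
    obtain ⟨β, n, b0, eb⟩ := f1 v _ (hG v) G0
    let m : Fin r → ℤ := fun i => v (Fin.castAdd ρ i)
    have e1 : hm s (Fin.append y u) n v = H (n, m) * mon u fun i => v (Fin.natAdd r i) := by
      simp [H, hm, mon, Fin.prod_univ_add, m, mul_assoc]
    refine ⟨β • hm s₁ y₁ n m, ?_, fun v0 => ?_⟩
    · rw [eb, e1, smul_assoc, Algebra.smul_def (hm s₁ y₁ n m), ← Hφ (n, m)]
      rfl
    rw [map_smul, Hφ (n, m)]
    refine Submodule.smul_mem _ _ ?_
    have sc : ∀ P ∈ T, 0 ≤ P.ord (H (n, m)) + δ ⬝ᵥ Dr e P := fun P a => by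
      have e2 : P.ord (G v) = P.ord (H (n, m)) := by
        rw [eb, Pl.ord_smul _ b0, e1, v0]
        simp [mon]
      by_cases t : Tv s (Fin.append y u) P
      · rw [← e2, t _ _ (hG v) G0, tv P a t, dotProduct_zero]
        exact le_rfl
      · have a1 := h.inv P a t G hG v G0
        rw [← eG, id, e2] at a1
        exact (w P a).trans (add_le_add_left a1 _)
    obtain ⟨N, hN⟩ : ∃ N : ℕ, ∀ p, 0 ≤ n p + N := by
      refine ⟨∑ p ∈ n.support, (n p).natAbs, fun p => ?_⟩
      by_cases t : p ∈ n.support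
      · have := Finset.single_le_sum (f := fun p => (n p).natAbs) (fun _ _ => Nat.zero_le _) t
        omega
      · rw [Finsupp.notMem_support_iff.1 t, zero_add]
        exact Int.natCast_nonneg _
    let n' := (n + N • F).filter (· ∉ J)
    have nJ : ∀ p ∈ J, n' p = 0 := fun p t => Finsupp.filter_apply_neg _ _ (not_not.2 t)
    have nK : ∀ p ∉ J, n' p = n p + N * F p := fun p t =>
      (Finsupp.filter_apply_pos (· ∉ J) _ t).trans (by simp)
    have n0 : 0 ≤ n' := fun p => by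
      show 0 ≤ n' p
      by_cases t : p ∈ J
      · exact (nJ p t).ge
      rw [nK p t, hF]
      by_cases t' : p ∈ Em
      · simpa [t'] using hN p
      · obtain ⟨P, a, x⟩ := not_not.1 fun x => t' ((hE p).2 ⟨t, x⟩)
        have a1 := sc P a
        rw [(h2 P a).elim (fun ⟨i, t''⟩ => ((ke i).2.2 p t (t'' ▸ x)).elim) And.left,
          dotProduct_zero, add_zero, Ho P a p t x] at a1
        simpa [t'] using a1
    have e3 : H (n, m) = H (n - n', m) * hm s (Fin.append y u) n' 0 := by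
      rw [← ap0, ← Ha, Prod.mk_add_mk, sub_add_cancel, add_zero]
    have eg : hm s (Fin.append y u) n' 0 =
        MvPolynomial.aeval s (∏ p ∈ n'.support, p.l ^ (n' p).toNat) := by
      rw [hm, show mon (Fin.append y u) 0 = 1 by simp [mon], mul_one, map_prod]
      exact Finset.prod_congr rfl fun p _ => by
        rw [map_pow, ← zpow_natCast, Int.toNat_of_nonneg (n0 p)]; rfl
    rw [e3, eg, MvPolynomial.aeval_def, MvPolynomial.eval₂_eq', Finset.mul_sum]
    refine sum_mem fun t ht => ?_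
    rw [← Algebra.smul_def, mul_smul_comm]
    refine Submodule.smul_mem _ _ ?_
    have e4 : ∏ i, s i ^ t i = (∏ i, β₀ i ^ t i) • H (∑ i, t i • n₀ i, 0) := by
      have := Hs (fun i => ((n₀ i, 0) : (Pg c →₀ ℤ) × (Fin r → ℤ))) t
      rw [show ∑ i, t i • ((n₀ i, 0) : (Pg c →₀ ℤ) × (Fin r → ℤ)) = (∑ i, t i • n₀ i, 0) from
        Prod.ext (by simp [Prod.fst_sum]) (by simp [Prod.snd_sum])] at this
      rw [this, ← Finset.prod_smul]
      exact Finset.prod_congr rfl fun i _ => by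
        rw [← smul_pow, ap0, ← en₀, MvPolynomial.aeval_X]
    have b1 : ∏ i, β₀ i ^ t i ≠ 0 := Finset.prod_ne_zero_iff.2 fun i _ => pow_ne_zero _ (β0 i)
    rw [e4, mul_smul_comm, ← Ha, Prod.mk_add_mk]
    refine Submodule.smul_mem _ _ (key _ _ N δ (fun p x => ?_) fun i => ?_)
    · have : ∀ i, n₀ i p = 0 := fun i => (hn₀ i p).2 fun d => x (hod.co i p d)
      simp [nK p x, this]
    have a1 := sc _ (ke i).1
    rw [h1, dotProduct_single_one, e3, Pl.ord_mul _ (H0 _) (f2 _ _).1] at a1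
    have s0 : ∀ l, s l ≠ 0 := fun l => by
      have := h.rat.ind.ne_zero (Fin.castAdd _ l)
      rwa [fr, Fin.append_left] at this
    have a2 : (e i).ord (hm s (Fin.append y u) n' 0) ≤ ∑ l, (t l : ℤ) * (e i).ord (s l) := by
      rcases h.pg _ (ke i).1 with z | ⟨p, z, z'⟩
      · rw [eg]
        exact z _ t ht
      · rw [id] at z z'
        rw [f6 _ _ _ _ z, od, nJ p (not_not.1 fun t => (ke i).2.2 p t z)]
        simp [z']
    rw [← ord_mon _ s0, mon_nat, e4, Pl.ord_smul _ b1] at a2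
    rw [← Prod.mk_add_mk, Ha, Pl.ord_mul _ (H0 _) (H0 _)]
    linarith
  choose ζ e1 e2 using cmp
  have e3 : ∑ v ∈ G.support, Finsupp.single (fun i => v (Fin.natAdd r i)) (ζ v) =
      Finsupp.single 0 z := Pq.Sm85.li_mon ind (by
    rw [map_sum, Finsupp.linearCombination_single,
      show mon u (0 : Fin ρ → ℤ) = 1 by simp [mon], ← Algebra.algebraMap_eq_smul_one]
    refine (Finset.sum_congr rfl fun v _ => ?_).trans eG.symm
    rw [Finsupp.linearCombination_single, e1])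
  have e4 := DFunLike.congr_fun e3 0
  rw [Finsupp.single_eq_same, Finsupp.finsetSum_apply] at e4
  rw [← e4, map_sum]
  refine sum_mem fun v _ => ?_
  rw [Finsupp.single_apply]
  split_ifs with t
  · exact e2 v t
  · rw [map_zero]
    exact zero_mem _

end Vale.Agent.P283R.Tl

end

section

open Set

namespace Vale.Agent.P283R.Tl

open Vale.Agent.P287D
open Pq (At lam fr Pg)
open Wd (Sb)

open Classical in
theorem pdx31 : PDX := by
  intro K _ _ c r ρ s y u T W I J k e fm wi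
  let V : Pg c → Set (Fin ρ → ℤ) := fun p =>
    {v | ∃ P ∈ T, At s P (some p) ∧ v = fun i => P.ord (u i)}
  have fin : ∀ p, (V p).Finite := fun p =>
    ((fm.fin (lam s p)).image fun P i => P.ord (u i)).subset fun v ⟨P, a, b, e⟩ =>
      ⟨P, ⟨a, b.1.ne'⟩, e.symm⟩
  have ex : ∀ p, (V p).Nonempty → ∀ m : Fin ρ → ℤ, ∃ n : ℤ,
      (∀ v ∈ V p, 0 ≤ v ⬝ᵥ m + n) ∧ ∃ v ∈ V p, v ⬝ᵥ m + n = 0 := fun p h m => by
    obtain ⟨v, hv, le⟩ := exists_min_image (V p) (· ⬝ᵥ m) (fin p) h
    exact ⟨-(v ⬝ᵥ m), fun w hw => by have := le w hw; omega, v, hv, by omega⟩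
  choose! κ hκ using ex
  have ne : ∀ p ∈ I.filter fun p => p ∉ J ∧ ∃ P ∈ T, At s P (some p), (V p).Nonempty :=
    fun p hp => by
      obtain ⟨-, -, P, a, b⟩ := Finset.mem_filter.1 hp
      exact ⟨_, P, a, b, rfl⟩
  refine ⟨⟨I.filter fun p => p ∉ J ∧ ∃ P ∈ T, At s P (some p), V, κ,
    fun p => ⟨lam s p, Wc.lam_mem31 s y p⟩, fun p i => -(e i).ord (lam s p),
    fun j i => -(e i).ord (u j)⟩, ⟨fun p => Finset.mem_filter, fun _ _ => Iff.rfl,
    fun p hp => hκ p (ne p hp), fun _ => rfl, fun _ _ => rfl, fun _ _ => rfl⟩,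
    fun p hp => ?_, ne, fun p hp v hv ν => (hκ p (ne p hp) ν).1 v hv,
    fun ν n0 => (wi ν n0).trans (ncard_le_ncard ?_ ((Finset.finite_toSet _).subset
      fun p hp => hp.1))⟩
  · obtain ⟨v, -, h⟩ := (hκ p (ne p hp) 0).2
    simpa using h
  · rintro p ⟨a, b, P, h1, P', h2, h3, h4, h5⟩
    exact ⟨Finset.mem_filter.2 ⟨a, b, P, h1, h3⟩, _, ⟨P, h1, h3, rfl⟩, _, ⟨P', h2, h4, rfl⟩, h5⟩

end Vale.Agent.P283R.Tl

end

section

open Set

namespace Vale.Agent.P283R.Tl

open Vale.Agent.P287D Vale.Agent.P283M Cx Cy Vale.Agent.P297Z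
open Wc (Dr Ho Kt Rep Sec Av Lk Un Od Or Eqf Wi Ef Mo Gn Pd ForA ForB ForD)
open Vale.Agent.P283R.To (mon)
open Pq (Hm Hg tot Tv At cz lam mu fr Pg)
open Wd (Sb sb)

namespace In31

variable {K : Type} [Field K] [Algebra ℂ K] {c r ρ : ℕ} {s : Fin c → K} {y : Fin r → K}
  {u : Fin ρ → K}

omit [Algebra ℂ K] in
theorem mon_app (v : Fin r → ℤ) : mon (Fin.append y u) (Fin.append v 0) = mon y v := by
  simp [mon, Fin.prod_univ_add]

/-- the components of a polynomial in `s` and `y` -/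
theorem cmp (hy : ∀ j, y j ≠ 0) {a : K} (ha : a ∈ Algebra.adjoin ℂ (range (fr s y))) :
    ∃ G, Hg s (Fin.append y u) G ∧ a = tot G ∧ ∀ w, G w ≠ 0 → ∀ i, w (Fin.natAdd r i) = 0 := by
  classical
  have h1 : a ∈ Submodule.span ℂ {b : K | ∃ v, b ∈ Hm s y v} := by
    have m0 : mon y 0 = 1 := by simp [mon]
    induction ha using Algebra.adjoin_induction with
    | mem x hx =>
      obtain ⟨i, rfl⟩ := hx
      refine Submodule.subset_span ?_
      refine Fin.addCases (fun i => ?_) (fun j => ?_) i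
      · exact ⟨0, s i, IntermediateField.subset_adjoin _ _ ⟨i, rfl⟩, by
          rw [fr, Fin.append_left, m0, mul_one]⟩
      · refine ⟨Pi.single j 1, 1, one_mem _, ?_⟩
        rw [fr, Fin.append_right, one_mul, mon, Finset.prod_eq_single j]
        · simp
        · intro i _ hi
          simp [hi]
        · simp
    | algebraMap t =>
      exact Submodule.subset_span ⟨0, _, IntermediateField.algebraMap_mem _ t, by rw [m0, mul_one]⟩
    | add x z _ _ hx hz => exact add_mem hx hz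
    | mul x z _ _ hx hz =>
      have := Submodule.mul_mem_mul hx hz
      rw [Submodule.span_mul_span] at this
      refine Submodule.span_mono ?_ this
      rintro _ ⟨_, ⟨v, φ, p, rfl⟩, _, ⟨v', φ', p', rfl⟩, rfl⟩
      exact ⟨v + v', φ * φ', mul_mem p p', by rw [To.mon_add hy]; ring⟩
  clear ha
  induction h1 using Submodule.span_induction with
  | mem x hx =>
    obtain ⟨v, φ, p, rfl⟩ := hx
    refine ⟨Finsupp.single (Fin.append v 0) (φ * mon y v), fun w => ?_,
      (Pq.S80.tot_single _ _).symm, fun w hw i => ?_⟩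
    · by_cases e : Fin.append v 0 = w
      · subst e
        exact ⟨φ, p, by rw [Finsupp.single_eq_same, mon_app]⟩
      · exact ⟨0, zero_mem _, by rw [Finsupp.single_eq_of_ne (Ne.symm e), zero_mul]⟩
    · by_cases e : Fin.append v 0 = w
      · subst e
        simp
      · exact absurd (Finsupp.single_eq_of_ne (Ne.symm e)) hw
  | zero => exact ⟨0, fun w => ⟨0, zero_mem _, by simp⟩, by simp [tot], fun w hw => absurd rfl hw⟩
  | add x z _ _ hx hz =>
    obtain ⟨G, a1, rfl, a2⟩ := hx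
    obtain ⟨G', b1, rfl, b2⟩ := hz
    refine ⟨G + G', fun w => ?_, (Finsupp.sum_add_index' (fun _ => rfl) fun _ _ _ => rfl).symm,
      fun w hw => ?_⟩
    · obtain ⟨φ, p, e⟩ := a1 w
      obtain ⟨ψ, q, e'⟩ := b1 w
      exact ⟨φ + ψ, add_mem p q, by rw [Finsupp.add_apply, e, e', add_mul]⟩
    · by_cases e : G w = 0
      · exact b2 w fun e' => hw (by rw [Finsupp.add_apply, e, e', add_zero])
      · exact a2 w e
  | smul t x _ hx =>
    obtain ⟨G, a1, rfl, a2⟩ := hx
    refine ⟨t • G, fun w => ?_, ?_, fun w hw => a2 w fun e => hw (by simp [e])⟩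
    · obtain ⟨φ, p, e⟩ := a1 w
      exact ⟨t • φ, IntermediateField.smul_mem _ p, by rw [Finsupp.smul_apply, e, smul_mul_assoc]⟩
    · rw [tot, tot, Finsupp.sum_smul_index' fun _ => rfl, Finsupp.smul_sum]

end In31

theorem ind31 : IND := by
  intro K _ _ c r ρ s y u T J κ fm od un p hp
  have fa := Pq.fac _ _ K s _ fm.rat
  have su := Pq.sums _ _ K s _ fm.rat
  have y0 : ∀ j, y j ≠ 0 := fun j => by
    have := fm.rat.ind.ne_zero (Fin.natAdd c (Fin.castAdd ρ j))
    rwa [fr, Fin.append_right, Fin.append_left] at this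
  have one : ∀ w, ∀ a ∈ Hm s (Fin.append y u) w, a ≠ 0 → (∀ i, w (Fin.natAdd r i) = 0) →
      ∃ k : ℤ, ∀ P ∈ T, At s P (some p) → P.ord a = k := by
    intro w a ha a0 hw
    obtain ⟨b, n, b0, rfl⟩ := fa.1 w a ha a0
    refine ⟨n p, fun P hP hA => ?_⟩
    rw [P.ord_smul b0, fa.2.2.2.2.2.1 P _ n w hA, (od.od P hP p hp hA).1, Fin.sum_univ_add]
    simp [hw, un P hP p hp hA _ (y0 _), Pq.od]
  have le : ∀ a ∈ Algebra.adjoin ℂ (range (fr s y)), a ≠ 0 → ∀ P ∈ T, ∀ P' ∈ T,
      At s P (some p) → At s P' (some p) → P.ord a ≤ P'.ord a := by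
    intro a ha a0 P hP P' hP' hA hA'
    obtain ⟨G, g1, rfl, g2⟩ := In31.cmp (u := u) y0 ha
    obtain ⟨w, w0, hw⟩ := su.2.1 G P' a0
    obtain ⟨k, hk⟩ := one w _ (g1 w) w0 (g2 w w0)
    have := fm.inv P hP (fa.2.2.2.2.1 P _ hA).1 G g1 w w0
    rw [id, hk P hP hA] at this
    rw [hk P' hP' hA'] at hw
    exact this.trans hw
  rintro P hP P' hP' hA hA' ⟨z, hz⟩ z0
  obtain ⟨a, ha, b, hb, rfl⟩ := IntermediateField.mem_adjoin_iff_div.1 hz
  have n0 : a / b ≠ 0 := fun e => z0 (Subtype.ext e)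
  have a0 : a ≠ 0 := fun e => n0 (by rw [e, zero_div])
  have b0 : b ≠ 0 := fun e => n0 (by rw [e, div_zero])
  change P.ord (a / b) = P'.ord (a / b)
  rw [div_eq_mul_inv, Pl.ord_mul _ a0 (inv_ne_zero b0), Pl.ord_mul _ a0 (inv_ne_zero b0),
    Pl.ord_inv, Pl.ord_inv, le_antisymm (le a ha a0 P hP P' hP' hA hA') (le a ha a0 P' hP' P hP hA' hA),
    le_antisymm (le b hb b0 P hP P' hP' hA hA') (le b hb b0 P' hP' P hP hA' hA)]

end Vale.Agent.P283R.Tl

end
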