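import Vale.Agent.P283R.Tl.St
import Vale.Agent.P283R.Pq.Fac60
import Vale.Agent.P283R.Wc.Mor18

/-!
# P283R, block TL: the wide state
-/

set_option linter.all false

noncomputable section

section

open Set

namespace Vale.Agent.P283R.Tl

open Vale.Agent.P287D Vale.Agent.P283M Vale.Agent.P297Z Cx
open Pq (At lam fr Pg Tv tot)
open Wd (Sb)
open Wc (Dr Kt)

theorem w1r21 : W1R := by
  classical
  intro ind K _ _ c r ρ s y u T W q ε G κ Q ξ I J f k N E e π σ α s' a' sc he re pd cx gn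
  have fm := sc.pk.fm
  obtain ⟨-, f2, -, -, -, -, -, -, f9, -⟩ := Pq.fac c _ K s _ fm.rat
  have u0 : ∀ i, u i ≠ 0 := fun i => by
    have := fm.rat.ind.ne_zero (Fin.natAdd c (Fin.natAdd r i))
    rwa [fr, Fin.append_right, Fin.append_right] at this
  have l0 : ∀ p, lam s p ≠ 0 := fun p z => (f2 (.single p 1) 0).1 (by simp [Pq.hm, z])
  have l1 : ∀ p, π.l p ≠ 0 := fun p z => l0 p (by rw [← pd.hl, z]; rfl)
  have d1 : ∀ (δ : Fin k → ℤ) i, δ ⬝ᵥ Dr e (e i) = δ i := fun δ i => by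
    simp [Dr, dotProduct, he.eq_iff]
  have d0 : ∀ (δ : Fin k → ℤ) P, P ∉ Kt s (Fin.append y u) T J → δ ⬝ᵥ Dr e P = 0 := fun δ P h =>
    Finset.sum_eq_zero fun i _ => by
      rw [Dr, if_neg fun z => h (re ▸ ⟨i, z.symm⟩), mul_zero]
  have cs : ∀ P ∈ T, (∃ i, e i = P) ∨ Tv s (Fin.append y u) P ∨ ∃ p ∉ J, At s P (some p) :=
    fun P h => by
      by_contra z
      push Not at z
      obtain ⟨i, w⟩ : P ∈ range e := re ▸ ⟨h, z.2.1, z.2.2⟩
      exact z.1 i w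
  have dT : ∀ (δ : Fin k → ℤ) P, Tv s (Fin.append y u) P → δ ⬝ᵥ Dr e P = 0 := fun δ P h =>
    d0 δ P fun z => z.2.1 h
  have dA : ∀ (δ : Fin k → ℤ) P, ∀ p ∉ J, At s P (some p) → δ ⬝ᵥ Dr e P = 0 := fun δ P p a h =>
    d0 δ P fun z => z.2.2 p a h
  have oA : ∀ P ∈ T, ∀ p ∉ J, At s P (some p) → ∀ p', P.ord (lam s p') = if p' = p then 1 else 0 :=
    fun P h p a b p' => by
      rw [b.2, (sc.od.od P h p a b).1, one_mul, Pq.od, Finsupp.single_apply]
  refine ⟨gn.ne, fun p _ => ⟨l1 p, (gn.sec _ _ (l1 p)).2 fun P h => ?_⟩, fun δ φ hφ => ?_,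
    fun δ m z => ?_⟩
  · rw [pd.hl]
    obtain ⟨i, rfl⟩ | t | ⟨p', a, b⟩ := cs P h
    · rw [d1, pd.hb, add_neg_cancel]
    · rw [dT _ _ t, ((f9 P).1 t).1 p, add_zero]
    · rw [dA _ _ _ a b, oA P h _ a b]
      split_ifs <;> simp
  · rcases eq_or_ne φ 0 with rfl | φ0
    · exact ⟨0, lv_zero _, fun m => by rw [Finsupp.zero_apply, hm_zero]; exact hφ⟩
    have w := (cx.sec _ _ φ0).1 hφ
    obtain ⟨H, hH, rfl⟩ := fm.lau φ φ0 fun P h t => by
      have := w P h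
      rwa [dT _ P t, add_zero] at this
    obtain ⟨γ, e1, e2, -⟩ := Wc.cmp9 K c r ρ s y u T H fm.rat hH
    refine ⟨γ, e1, fun m => Submodule.span_le.2 ?_ (e2 m)⟩
    rintro _ ⟨v, rfl⟩
    rcases eq_or_ne (H v) 0 with z | z
    · rw [z]
      exact zero_mem _
    refine (cx.sec _ _ z).2 fun P h => ?_
    by_cases t : Tv s (Fin.append y u) P
    · rw [t _ _ (hH v) z, dT _ _ t, add_zero]
    · exact (w P h).trans (add_le_add_left (fm.inv P h t H hH v z) _)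
  rcases eq_or_ne z 0 with rfl | z0
  · rw [hm_zero, zero_div]
    exact iff_of_true (zero_mem _) (zero_mem _)
  have c0 : π.cc m ≠ 0 := Finset.prod_ne_zero_iff.2 fun p _ => zpow_ne_zero _ (l1 p)
  have z1 : z / π.cc m ≠ 0 := div_ne_zero z0 c0
  let th : Pl K → ℤ := fun P =>
    ∑ p ∈ π.I, π.κ p m * P.ord (lam s p) + m ⬝ᵥ fun i => P.ord (u i)
  have eo : ∀ P : Pl K, P.ord (hm u z m) = P.ord ((z / π.cc m : Sb (fr s y)) : K) + th P :=
    fun P => by
      have e1 : hm u z m = algebraMap _ K (z / π.cc m) * hm u (π.cc m) m := by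
        rw [hm, hm, ← mul_assoc, ← map_mul, div_mul_cancel₀ _ c0]
      have e2 : algebraMap _ K (π.cc m) = ∏ p ∈ π.I, lam s p ^ π.κ p m := by
        rw [Wd.Pg.cc, map_prod]
        exact Finset.prod_congr rfl fun p _ => by rw [map_zpow₀, ← pd.hl]; rfl
      rw [e1, Pl.ord_mul _ ((map_ne_zero _).2 z1) (hm_ne u0 c0 _), ord_hm u0 P c0, e2,
        A0r.ord_prod P _ _ fun p => zpow_ne_zero _ (l0 p)]
      simp only [Pl.ord_zpow]
      rfl
  have k1 : ∀ i, th (e i) + π.al m i = 0 := fun i => by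
    simp only [th, Wd.Pg.al, Pi.add_apply, Finset.sum_apply, Pi.smul_apply, smul_eq_mul, pd.ha,
      pd.hb, dotProduct]
    simp only [mul_neg, Finset.sum_neg_distrib]
    ring
  have k2 : ∀ P, Tv s (Fin.append y u) P → th P = 0 := fun P t => by
    obtain ⟨a, b⟩ := (f9 P).1 t
    have : ∀ i, P.ord (u i) = 0 := fun i => by simpa using b (Fin.natAdd r i)
    simp [th, a _, this, dotProduct]
  have k3 : ∀ P ∈ T, ∀ p ∉ J, At s P (some p) → th P =
      (if p ∈ π.I then π.κ p m else 0) + (fun i => P.ord (u i)) ⬝ᵥ m := fun P h p a b => by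
    simp only [th, oA P h p a b, mul_ite, mul_one, mul_zero, Finset.sum_ite_eq',
      dotProduct_comm m]
  have k4 : ∀ P ∈ T, ∀ p ∉ J, At s P (some p) →
      0 ≤ th P ∧ ∃ P' ∈ T, At s P' (some p) ∧ th P' = 0 := fun P h p a b => by
    by_cases g : p ∈ π.I
    · obtain ⟨g1, v, hv, g2⟩ := pd.hk p g m
      obtain ⟨P', h', b', rfl⟩ := (pd.hV p v).1 hv
      rw [k3 P h p a b, if_pos g, add_comm]
      exact ⟨g1 _ ((pd.hV p _).2 ⟨P, h, b, rfl⟩), P', h', b',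
        by rw [k3 P' h' p a b', if_pos g, add_comm, g2]⟩
    · have : th P = 0 := by
        rw [k3 P h p a b, if_neg g, zero_add]
        exact Finset.sum_eq_zero fun i _ => mul_eq_zero_of_left
          (sc.u0 P h p (fun z => g ((pd.hI p).2 ⟨z, a, P, h, b⟩)) b i (u0 i)) _
      exact ⟨this.ge, P, h, b, this⟩
  rw [cx.sec _ _ (hm_ne u0 z0 _), gn.sec _ _ z1]
  simp only [eo]
  refine ⟨fun w P h => ?_, fun w P h => ?_⟩
  · obtain ⟨i, rfl⟩ | t | ⟨p, a, b⟩ := cs P h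
    · have a1 := w _ h
      have a2 := k1 i
      rw [d1] at a1 ⊢
      rw [Pi.sub_apply]
      omega
    · have a1 := w _ h
      rw [dT _ _ t, k2 P t, add_zero] at a1
      rwa [dT _ _ t]
    · obtain ⟨P', h', b', o⟩ := (k4 P h p a b).2
      have a1 := w _ h'
      rw [dA _ _ _ a b', o, add_zero] at a1
      rwa [dA _ _ _ a b, ind K c r ρ s y u T J κ fm sc.od sc.y1 p a P h P' h' b b' _ z1]
  · have a1 := w _ h
    obtain ⟨i, rfl⟩ | t | ⟨p, a, b⟩ := cs P h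
    · have a2 := k1 i
      rw [d1] at a1 ⊢
      rw [Pi.sub_apply] at a1
      omega
    · rw [dT _ _ t] at a1 ⊢
      rwa [k2 P t, add_zero]
    · rw [dA _ _ _ a b, add_zero] at a1 ⊢
      exact add_nonneg a1 (k4 P h p a b).1

end Vale.Agent.P283R.Tl

end

section

open Set

namespace Vale.Agent.P283R.Tl

open Vale.Agent.P287D Vale.Agent.P283M Cx Cy Vale.Agent.P297Z
open Wc (Dr Ho Kt Rep Sec Av Lk Un Od Or Eqf Wi Ef Mo Gn Pd ForA ForB ForD)
open Vale.Agent.P283R.To (mon)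
open Pq (Hm Hg tot Tv At cz lam mu fr Pg)
open Wd (Sb sb Wv Ps Wx MNW Pos)

namespace W231

variable {K : Type} [Field K] [Algebra ℂ K] {k N : ℕ} {e : Fin k → Pl K}

theorem dot_self (he : Function.Injective e) (δ : Fin k → ℤ) (i : Fin k) :
    δ ⬝ᵥ Dr e (e i) = δ i := by
  simp [dotProduct, Dr, he.eq_iff]

theorem dot_not {P : Pl K} (h : P ∉ range e) (δ : Fin k → ℤ) : δ ⬝ᵥ Dr e P = 0 := by
  refine Finset.sum_eq_zero fun i _ => ?_
  rw [Dr, if_neg fun z => h ⟨i, z.symm⟩, mul_zero]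

theorem pos_of {T : Set (Pl K)} {σ : Fin N → K} {α : Fin N → Fin k → ℤ} {Q : Pl K}
    {ξ : Pl K → ℝ} (he : Function.Injective e) (cx : Cox T (Dr e) σ α)
    (reg : ∀ φ : K, φ ≠ 0 → (∀ P ∈ T, 0 ≤ P.ord φ) → ∀ P, 0 < ξ P → 0 < P.ord φ → 0 < Q.ord φ)
    {w : K} {δ : Fin k → ℤ} (w0 : w ≠ 0) (hδ : ∀ i, δ i = -(e i).ord w)
    (h0 : ∀ P ∈ T, P ∉ range e → 0 ≤ P.ord w) {P₀ : Pl K} (t : P₀ ∈ T) (n : P₀ ∉ range e)
    (x : 0 < ξ P₀) (o : 0 < P₀.ord w) : Pos σ α Q w δ := fun φ hφ φ0 => by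
  have s := (cx.sec _ φ φ0).1 hφ
  refine reg _ (mul_ne_zero w0 φ0) (fun P hP => ?_) P₀ x ?_
  · have a := s P hP
    rw [Pl.ord_mul _ w0 φ0]
    by_cases z : P ∈ range e
    · obtain ⟨i, rfl⟩ := z
      rw [dot_self he, Pi.neg_apply, hδ] at a
      omega
    · rw [dot_not z] at a
      have := h0 P hP z
      omega
  · have a := s P₀ t
    rw [dot_not n] at a
    rw [Pl.ord_mul _ w0 φ0]
    omega

end W231

open W231

/-- **W2R** -/
theorem w2r31 : W2R := by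
  classical
  intro reg K _ _ c r ρ s y u T W q ε G κ Q ξ I J k N e π σ α W1 sc he rg pd wid cx
  have fm := sc.pk.fm
  obtain ⟨-, f2, -, -, -, -, -, -, f9, -⟩ := Pq.fac60 c (r + ρ) K s (Fin.append y u) fm.rat
  have rq := fun φ => reg K c (r + ρ) s (Fin.append y u) T Q ξ φ fm sc.rep
  have l0 : ∀ p, lam s p ≠ 0 := fun p => by
    have := (f2 (Finsupp.single p 1) 0).1
    rw [Pq.hm, Finsupp.prod_single_index (by simp), zpow_one] at this
    exact left_ne_zero_of_mul this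
  have u0 : ∀ j, u j ≠ 0 := fun j => by
    simpa using Pq.B25.y_ne fm.rat (Fin.natAdd r j)
  have out : ∀ P ∈ T, P ∉ range e → Tv s (Fin.append y u) P ∨ ∃ p ∉ J, At s P (some p) :=
    fun P hP z => by
      by_contra! h
      exact z (rg ▸ ⟨hP, h.1, h.2⟩)
  have nin : ∀ P p, p ∉ J → At s P (some p) → P ∉ range e := fun P p a b z =>
    (rg ▸ z : P ∈ Kt s (Fin.append y u) T J).2.2 p a b
  have ol : ∀ P ∈ T, ∀ p ∉ J, At s P (some p) → ∀ p', P.ord (lam s p') = if p' = p then 1 else 0 :=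
    fun P hP p a b p' => by
      rw [b.2 p', (sc.od.od P hP p a b).1, one_mul, Pq.od, Finsupp.single_apply]
  refine ⟨fun n hn => ?_, fun p hp => ?_, fun m m0 => ?_⟩
  · have n0 : ∏ j, σ j ^ n j ≠ 0 := Finset.prod_ne_zero_iff.2 fun j _ => pow_ne_zero _ (cx.ne j)
    refine (rq _ n0 fun P hP => ?_).1
    simpa using (cx.sec 0 _ n0).1 (Submodule.subset_span ⟨n, hn, rfl⟩) P hP
  · obtain ⟨a, b, P₀, t, d⟩ := (pd.hI p).1 hp
    have el : algebraMap (Sb (fr s y)) K (π.l p) = lam s p := pd.hl p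
    rw [el]
    refine pos_of he cx (fun φ f0 h => (rq φ f0 h).2) (l0 p) (pd.hb p) (fun P hP z => ?_) t
      (nin P₀ p b d) (sc.pos P₀ t p a b d) (by rw [ol P₀ t p b d, if_pos rfl]; exact one_pos)
    rcases out P hP z with h | ⟨p', a', b'⟩
    · exact (((f9 P).1 h).1 p).ge
    · rw [ol P hP p' a' b']
      split_ifs <;> omega
  · have ew : hm u (π.cc m) m = (∏ p ∈ π.I, lam s p ^ π.κ p m) * mon u m := by
      rw [hm, Wd.Pg.cc, map_prod]
      congr 1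
      refine Finset.prod_congr rfl fun p _ => ?_
      rw [map_zpow₀]
      exact congrArg (· ^ π.κ p m) (pd.hl p)
    have p0 : ∏ p ∈ π.I, lam s p ^ π.κ p m ≠ 0 :=
      Finset.prod_ne_zero_iff.2 fun p _ => zpow_ne_zero _ (l0 p)
    have ow : ∀ P : Pl K, P.ord (hm u (π.cc m) m) =
        ∑ p ∈ π.I, π.κ p m * P.ord (lam s p) + ∑ j, m j * P.ord (u j) := fun P => by
      rw [ew, Pl.ord_mul _ p0 (To.mon_ne u0 m), To.ord_mon P u0,
        P.ord_prod _ fun p _ => zpow_ne_zero _ (l0 p)]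
      simp only [Pl.ord_zpow]
    have oi : ∀ P ∈ T, ∀ p ∈ π.I, At s P (some p) → P.ord (hm u (π.cc m) m) =
        (fun i => P.ord (u i)) ⬝ᵥ m + π.κ p m := fun P hP p hp b => by
      rw [ow, Finset.sum_congr rfl fun p' _ => by rw [ol P hP p ((pd.hI p).1 hp).2.1 b p']]
      simp only [mul_ite, mul_one, mul_zero, Finset.sum_ite_eq', if_pos hp, dotProduct]
      rw [add_comm, Finset.sum_congr rfl fun j _ => mul_comm _ _]
    obtain ⟨p, hp, v, hv, v', hv', ne⟩ := nonempty_of_ncard_ne_zero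
      (Nat.one_le_iff_ne_zero.1 (W1.trans (wid.wid m m0)))
    obtain ⟨a, b, -⟩ := (pd.hI p).1 hp
    obtain ⟨P₀, t, d, o⟩ : ∃ P₀ ∈ T, At s P₀ (some p) ∧ 0 < P₀.ord (hm u (π.cc m) m) := by
      have k1 := wid.vk p hp v hv m
      have k2 := wid.vk p hp v' hv' m
      obtain ⟨P, t, d, rfl⟩ := (pd.hV p v).1 hv
      obtain ⟨P', t', d', rfl⟩ := (pd.hV p v').1 hv'
      by_cases z : 0 < (fun i => P.ord (u i)) ⬝ᵥ m + π.κ p m
      · exact ⟨P, t, d, by rw [oi P t p hp d]; exact z⟩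
      · exact ⟨P', t', d', by rw [oi P' t' p hp d']; omega⟩
    refine pos_of he cx (fun φ f0 h => (rq φ f0 h).2) (ew ▸ mul_ne_zero p0 (To.mon_ne u0 m))
      (fun i => ?_) (fun P hP z => ?_) t (nin P₀ p b d) (sc.pos P₀ t p a b d) o
    · rw [ow, Wd.Pg.al, Pi.add_apply, Finset.sum_apply, Finset.sum_apply, neg_add, add_comm,
        ← Finset.sum_neg_distrib, ← Finset.sum_neg_distrib]
      congr 1
      · exact Finset.sum_congr rfl fun p _ => by simp [pd.hb]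
      · exact Finset.sum_congr rfl fun j _ => by simp [pd.ha]
    · rcases out P hP z with h | ⟨p', a', b'⟩
      · obtain ⟨h1, h2⟩ := (f9 P).1 h
        have h3 : ∀ j, P.ord (u j) = 0 := fun j => by simpa using h2 (Fin.natAdd r j)
        rw [ow]
        simp [h1 _, h3]
      · by_cases z' : p' ∈ π.I
        · rw [oi P hP p' z' b']
          exact wid.vk p' z' _ ((pd.hV p' _).2 ⟨P, hP, b', rfl⟩) m
        · have nI : p' ∉ I := fun h => z' ((pd.hI p').2 ⟨h, a', P, hP, b'⟩)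
          rw [ow, Finset.sum_eq_zero fun p hp => by
            rw [ol P hP p' a' b', if_neg (ne_of_mem_of_not_mem hp z'), mul_zero],
            Finset.sum_eq_zero fun j _ => by rw [sc.u0 P hP p' nI b' j (u0 j), mul_zero]]
          rfl

end Vale.Agent.P283R.Tl

end

section

open Set

namespace Vale.Agent.P283R.Tl

open Vale.Agent.P287D Vale.Agent.P283M Cx Cy
open Vale.Agent.P283R.To (mon)
open Pq (Hm Hg tot Tv Hz At cz lam mu fr Pg ForR ForX)
open Wd (Sb sb Wv Ps Wx)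
open Wc (Dr Ho Kt Rep Sec Av Lk Un Od Or Eqf Wi Ef Mo Gn Pd ForA ForB ForD)

open Wc.M18 in
theorem mor18 : MOR := by
  intro car gen pdx w1 w2 B q ε q0 e0
  obtain ⟨W, m, W1, m2, H⟩ := Wc.mur60 Wd.mnw (5 * B + 2) q ε q0 e0
  refine ⟨W, m, m2, fun K _ _ c r ρ s y u T G κ Q ξ I J f b1 b2 sc ef b3 => ?_⟩
  have fm := sc.pk.fm
  have rt := fm.rat
  obtain ⟨e, ei, er⟩ := enum (car K c _ s _ T J fm).1
  obtain ⟨γ, g1, -, g2⟩ := Wc.cmp9 K c r ρ s y u T G rt sc.hg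
  obtain ⟨E, s', a', eb, gn⟩ := gen K c r ρ s y u T J κ f _ e fm sc.od sc.y1 ef ei er
  obtain ⟨π, pd, wid⟩ := pdx K c r ρ s y u T W I J _ e fm sc.wi
  obtain ⟨r1, x1, -⟩ := Pq.B25.tower rt
  have ke : ∀ i, e i ∈ Kt s (Fin.append y u) T J := fun i => er ▸ mem_range_self i
  have h0 : hm u (eta s y) 1 ≠ 0 := by
    rw [eta_eq]
    exact Finset.prod_ne_zero_iff.2 fun j _ => Pq.B25.y_ne rt j
  have o1 : ∀ P : Pl K, P.ord 1 = 0 := fun P => by simp
  obtain ⟨N, l, σ, α, f', dx⟩ := sc.pk.av 1 _ ∅ _ e _ one_ne_zero h0 finite_empty ei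
    (fun i => ⟨(ke i).1, notMem_empty _⟩) (fun P p n => by
      rw [er] at n
      rw [o1, add_zero]
      by_cases t : Tv s (Fin.append y u) P
      · exact ⟨fm.kt P p.1 t, (sc.pk.reg P p.1 t).2⟩
      · by_contra z
        exact n ⟨p.1, t, fun p' a b => z (sc.od.od P p.1 p' a b).2⟩) (frm rt) (kap_eq rt)
  rw [sdiff_empty, div_one, ← g1] at dx
  obtain ⟨n, n1, n2⟩ := H _ _ ρ E _ K N l _ (sb (fr s y)) u T _ σ α f' _ γ _ _ π s' a' Q
    (by omega) (by omega) (by omega) ⟨fun i => cz s (Fin.append y u) (e i), funext fun i => by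
      simp⟩ x1 ⟨frm_of r1.ff r1.ind, g2 sc.g0, dx, wid,
      w1 K c r ρ s y u T W q ε G κ Q ξ I J f _ N E e π σ α s' a' sc ei er pd dx.cox gn,
      w2 K c r ρ s y u T W q ε G κ Q ξ I J _ N e π σ α W1 sc ei er pd wid dx.cox⟩
  have z0 : ∏ j, s' j ^ n j ≠ 0 := Finset.prod_ne_zero_iff.2 fun j _ => pow_ne_zero _ (gn.ne j)
  have ez : ((∏ j, s' j ^ n j : Sb (fr s y)) : K) = ∏ j, (s' j : K) ^ n j := by push_cast; rfl
  have z1 : ∏ j, (s' j : K) ^ n j ≠ 0 := by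
    rw [← ez]
    exact fun a => z0 (Subtype.ext a)
  refine ⟨_, gn.mo n, fun P p => ?_, ?_⟩
  · obtain ⟨i, rfl⟩ : P ∈ range e := er.ge p
    have := (gn.sec _ _ z0).1 (Submodule.subset_span ⟨n, n1, rfl⟩) _ p.1
    rw [dot ei, ez] at this
    simp only [Pi.neg_apply, Pi.smul_apply, smul_eq_mul, o1, add_zero] at this
    omega
  · have g0 := sc.pk.g0
    have qm : (0 : ℝ) < (q * m : ℕ) := by
      have : 0 < q * m := Nat.mul_pos q0 (by omega)
      exact_mod_cast this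
    have e1 : (hm u (eta s y) 1 ^ q * lv u γ) ^ m * ∏ j, algebraMap (Sb (fr s y)) K (s' j) ^ n j =
        hm u (eta s y) 1 ^ (q * m) * (tot G ^ m * ∏ j, (s' j : K) ^ n j) := by
      rw [g1, mul_pow, ← pow_mul, mul_assoc]
      rfl
    rw [ld, kap_eq rt, e1, P297Z.Pl.ord_mul _ (pow_ne_zero _ h0)
      (mul_ne_zero (pow_ne_zero _ g0) z1), P297Z.Pl.ord_pow, sub_pos, div_lt_iff₀ qm] at n2
    have : ((Q.ord (tot G ^ m * ∏ j, (s' j : K) ^ n j) : ℤ) : ℝ) <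
        (q * m * (cz s (Fin.append y u) Q + 1) : ℤ) := by
      push_cast at n2 ⊢
      linarith
    exact_mod_cast this

end Vale.Agent.P283R.Tl

end
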