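import Vale.Agent.P283R.Tl.St
import Vale.Agent.P283R.Wc.Hlr62

/-!
# P283R, block TL: Caratheodory and Helly
-/

set_option linter.all false

noncomputable section

section

open Set

namespace Vale.Agent.P283R.Tl

open Vale.Agent.P287D Vale.Agent.P283M Vale.Agent.P297Z
open Pq (Hm At lam mu fr Pg)
open Wc (Ho Kt Rep)

theorem C13.car (dic : DIC) {K : Type} [Field K] [Algebra ℂ K] {c ρ : ℕ} {s : Fin c → K}
    {y : Fin ρ → K} {T : Set (Pl K)} {J : Finset (Pg c)} (fm : Fm s y (· ∈ T) id)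
    (fin : (Kt s y T J).Finite) (co : ∀ (i : Fin c) (p : Pg c), p.l ∣ MvPolynomial.X i → p ∈ J)
    {Q : Pl K} {ξ : Pl K → ℝ} (h : Rep s y T Q ξ) {l : ℕ}
    (gk : Gk l s {R | ξ R ≠ 0 ∧ Mv s R}) : ∃ (ξ' : Pl K → ℝ) (t : Finset (Pl K)),
      Rep s y T Q ξ' ∧ t.card ≤ l + (ρ + J.card) ∧ (∀ P ∈ Kt s y T J, ξ' P ≠ 0 → P ∈ t) ∧
        ∀ P ∉ Kt s y T J, 0 < ξ P → 0 < ξ' P := by
  classical
  obtain ⟨-, f2, -, -, -, -, -, f8, -, f10, -⟩ := Pq.fac c ρ K s y fm.rat
  obtain ⟨-, -, -, d4, d5, d6⟩ := dic c ρ K s y fm.rat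
  let S := fin.toFinset
  have hS : ∀ P, P ∈ S ↔ P ∈ Kt s y T J := fun P => fin.mem_toFinset
  obtain ⟨D, D1, D2⟩ : Gk l s {P | P ∈ S ∧ ξ P ≠ 0 ∧ Mv s P} := by
    rw [show {P | P ∈ S ∧ ξ P ≠ 0 ∧ Mv s P} = {R | ξ R ≠ 0 ∧ Mv s R} from Set.ext fun P =>
      ⟨fun a => a.2, fun a => ⟨(hS P).2 ⟨(h.sup P a.1).1, (h.sup P a.1).2, fun p n b =>
        Tb.C85.not_mn fm.rat b (fun i k => n (co i p k)) a.2⟩, a⟩⟩]
    exact gk
  have ne : ∀ {P p p'}, At s P (some p') → p ≠ p' → P.ord (lam s p) = 0 := fun a e => by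
    rw [a.2, Pq.od, Finsupp.single_eq_of_ne e.symm, mul_zero]
  have ex : ∀ P ∉ S, ξ P ≠ 0 → ∃ p ∉ J, At s P (some p) := fun P k m => by
    by_contra z
    exact k ((hS P).2 ⟨(h.sup P m).1, (h.sup P m).2, fun p a b => z ⟨p, a, b⟩⟩)
  let r : Pl K → Option (Pg c) := fun P =>
    if k : ∃ p ∉ J, At s P (some p) then some k.choose else none
  have fi : ∀ a : K, (Function.support fun P => ξ P * (P.ord a : ℝ)).Finite := fun a =>
    (fm.fin a).subset fun P k =>
      ⟨(h.sup P (left_ne_zero_of_mul k)).1, Int.cast_ne_zero.1 (right_ne_zero_of_mul k)⟩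
  have hl : ∀ p, ∑ᶠ P, ξ P * (P.ord (lam s p) : ℝ) = Q.ord (lam s p) := fun p =>
    h.eq _ ⟨Pq.F60.lam_ne (Pq.F60.ind_s fm.rat.ind) p, 0, Pq.F60.lam_mem p⟩
  have z0 : ∀ p ∈ J, ∀ P ∉ S, ξ P ≠ 0 → (P.ord (lam s p) : ℝ) = 0 := fun p a P k m => by
    obtain ⟨p', b, e⟩ := ex P k m
    rw [ne e fun z => b (z ▸ a), Int.cast_zero]
  have hJ : ∀ p ∈ J, ∑ P ∈ S, ξ P * (P.ord (lam s p) : ℝ) = Q.ord (lam s p) := fun p a => by
    rw [← hl, finsum_eq_sum_of_support_subset]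
    exact fun P k => by_contra fun m => right_ne_zero_of_mul k (z0 p a P m (left_ne_zero_of_mul k))
  have hs : ∀ η : Pl K → ℝ, (∀ p ∈ J, ∑ P ∈ S, η P * (P.ord (lam s p) : ℝ) = Q.ord (lam s p)) →
      ∀ i, ∑ P ∈ S, η P * (P.ord (s i) : ℝ) = Q.ord (s i) := fun η e i => by
    obtain ⟨b, n, b0, -, -, k, a⟩ := f10 (MvPolynomial.X i) (MvPolynomial.X_ne_zero i)
    rw [MvPolynomial.aeval_X] at a
    have o : ∀ P : Pl K, (P.ord (s i) : ℝ) = ∑ p ∈ n.support, n p * (P.ord (lam s p) : ℝ) :=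
      fun P => by
        rw [a, P.ord_smul b0, f8, Finsupp.sum]
        simp
    simp only [o, Finset.mul_sum]
    rw [Finset.sum_comm]
    refine Finset.sum_congr rfl fun p m => ?_
    rw [← e p (co i p (not_not.1 (mt (k p).2 (Finsupp.mem_support_iff.1 m)))), Finset.mul_sum]
    exact Finset.sum_congr rfl fun _ _ => by ring
  obtain ⟨ξ', t, a0, -, a2, a3, a4, a5, a6, a7⟩ := Tb.C13.abs (β := Fin ρ ⊕ J) S D ξ h.nn
    (fun P => Sum.elim (fun j => P.ord (y j)) fun p => P.ord (lam s p))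
    (fun P o => o.elim 0 fun p => P.ord (lam s p)) r (fun o => o.elim 0 fun p => Q.ord (lam s p))
    (fun P k m => by
      have e := ex P k m
      simp only [r, dif_pos e, Option.elim]
      refine ⟨Int.cast_pos.2 e.choose_spec.2.1, ?_⟩
      rintro (_ | p) b
      · rfl
      · exact Int.cast_eq_zero.2 (ne e.choose_spec.2 fun z => b (congrArg _ z)))
    (by rintro (j | p); exacts [fi _, fi _])
    (by rintro (_ | p); exacts [by simp, fi _]) (by rintro (_ | p); exacts [by simp, hl p])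
    fun ζ ζ0 ζ1 ζ2 e => by
      have eJ : ∀ p ∈ J, ∑ P ∈ S, ζ P * (P.ord (lam s p) : ℝ) = Q.ord (lam s p) := fun p a =>
        (e (.inr ⟨p, a⟩) (z0 p a)).trans (hJ p a)
      rintro (_ | p)
      · simp
      by_cases a : p ∈ J
      · exact ⟨(eJ p a).le, iff_of_true (eJ p a) (hJ p a)⟩
      have pg : ∀ P ∈ S, Mv s P ∨ ∃ p', p' ≠ p ∧ Ax s P p' := fun P k =>
        (fm.pg P ((hS P).1 k).1).imp_right fun ⟨p', b⟩ =>
          ⟨p', fun z => ((hS P).1 k).2.2 p a (z ▸ b.1), b⟩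
      have k1 := d6 Q S ζ p (fun P _ => ζ0 P) (fun P k _ => pg P k) (hs ζ eJ)
      have k2 := d6 Q S ξ p (fun P _ => h.nn P) (fun P k _ => pg P k) (hs ξ hJ)
      refine ⟨k1.1, k1.2.trans (.trans (exists_congr fun m => and_congr_right fun b =>
        and_congr_right fun _ => ⟨fun z P k n => ?_, fun z P k n => z P k (ζ2 P n)⟩) k2.2.symm)⟩
      obtain v | ⟨p', v, w⟩ := pg P k
      · exact d5 D _ p m b (fun R x => x.2.2) D2
          (fun R x => z R (D2.1 x).1 (ζ1 R x ▸ (D2.1 x).2.1)) P ⟨k, n, v⟩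
      · exact d4 P p' p w v.symm m
  have sup := fun P k => h.sup P (a4 P k)
  refine ⟨ξ', t, ⟨a0, sup, fun a ⟨b, u, e⟩ => ?_⟩, a2.trans (Nat.add_le_add D1 (by simp)),
    fun P k => a3 P ((hS P).2 k), fun P k m => (a0 P).lt_of_ne' (a5 P (mt (hS P).1 k) m.ne')⟩
  refine (Tb.C85.oa_of Pq.fac (P := id) ⟨fm.rat, fm.fin⟩ sup Q 1 (fun j => ?_) (fun p => ?_) u a e b).trans
    (one_mul _)
  · have := f2 0 (Pi.single j 1)
    rw [Pq.hm, Finsupp.prod_zero_index, one_mul, show To.mon y (Pi.single j 1) = y j by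
      rw [To.mon, Finset.prod_eq_single j (fun i _ k => by simp [k]) (by simp)]; simp] at this
    exact (a6 (.inl j)).trans ((h.eq _ ⟨this.1, _, this.2⟩).trans (one_mul _).symm)
  · exact (a7 (some p)).trans (one_mul _).symm

/-- **C2R** -/
theorem c2r13 : C2R := fun dic car K _ _ c r ρ s y u T l W q ε G κ Q ξ I J h gk => by
  obtain ⟨ξ', t, a, b, e, f⟩ := C13.car dic h.pk.fm (car K c _ s _ T J h.pk.fm).1 h.od.co h.rep gk
  exact ⟨ξ', t, { h with
    rep := a
    pos := fun P k p i j m => f P (fun z => z.2.2 p j m) (h.pos P k p i j m) }, by omega, e⟩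

end Vale.Agent.P283R.Tl

end

section

open Set

namespace Vale.Agent.P283R.Tl

open Vale.Agent.P287D Vale.Agent.P283M Cx Cy
open Vale.Agent.P283R.To (mon)
open Pq (Hm Hg tot Tv Hz At cz lam mu fr Pg)
open Wc (Kt Ef Mo)
open Wc.H62

/-- **HLR** -/
theorem hlr62 : HLR := fun drp car ca2 mon' B q ε q0 ε0 => by
  classical
  obtain ⟨W, m, m2, hm⟩ := mon' (2 ^ (2 * B + 1) + (2 * B + 1 + B)) q ε q0 ε0
  refine ⟨W, m, m2, fun K _ _ c r ρ s y u T G κ Q ξ I J hd hJ S₀ gk => ?_⟩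
  obtain ⟨ξ', t, S, tc, ts⟩ := ca2 K c r ρ s y u T B W q ε G κ Q ξ I J S₀ gk
  have fm := S.pk.fm
  obtain ⟨fin, f, hf⟩ := car K c (r + ρ) s _ T J fm
  have r' := S.rep
  have l0 : ∀ p, lam s p ≠ 0 := Pq.F60.lam_ne (Pq.F60.ind_s fm.rat.ind)
  have y0 : ∀ j, y j ≠ 0 := fun j =>
    Fin.append_left y u j ▸ Pq.F60.y_ne fm.rat.ind (Fin.castAdd ρ j)
  have f0 : f ≠ 0 := by
    obtain ⟨E, -, rfl⟩ := hf
    exact Finset.prod_ne_zero_iff.2 fun p _ => l0 p
  have z0 : ∀ a, zz s y J f a ≠ 0 := by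
    rintro (p | j | _)
    exacts [l0 _, y0 _, f0]
  have g0 := S.pk.g0
  have cd : Fintype.card (J ⊕ Fin r ⊕ Unit) ≤ 2 * B + 1 := by
    simp only [Fintype.card_sum, Fintype.card_coe, Fintype.card_fin, Fintype.card_unique]
    omega
  obtain ⟨l, h1, h2⟩ := hel fin.toFinset (fun P a => P.ord (zz s y J f a)) (fun P => m * κ P)
    (fun a => Q.ord (zz s y J f a))
    (q * m * (cz s (Fin.append y u) Q + 1) - Q.ord (tot G ^ m)) fun t' ht' c' => by
      let X := Kt s (Fin.append y u) T J \ ↑(t' ∪ t)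
      have nx : ∀ P p, p ∉ J → At s P (some p) → P ∉ Kt s (Fin.append y u) T J :=
        fun P p hp a k => k.2.2 p hp a
      have ex : ∀ p ∉ J, ∀ P, At s P (some p) → (P ∈ T \ X ↔ P ∈ T) := fun p hp P a =>
        ⟨fun k => k.1, fun k => ⟨k, fun x => nx P p hp a x.1⟩⟩
      have kt : Kt s (Fin.append y u) (T \ X) J ⊆ ↑(t' ∪ t) := fun P k => by
        by_contra x
        exact k.1.2 ⟨⟨k.1.1, k.2⟩, x⟩
      have S' : Sc W q ε s y u (T \ X) G κ Q ξ' I J :=
        { pk := drp K c (r + ρ) s _ T _ q ε _ κ X S.pk (fin.subset sdiff_subset)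
            fun P k => k.1.2.1
          hg := S.hg
          g0 := S.g0
          rep := ⟨r'.nn, fun P k => ⟨⟨(r'.sup P k).1, fun x => x.2 (by
            rw [Finset.coe_union]
            exact Or.inr (ts P x.1 k))⟩, (r'.sup P k).2⟩, r'.eq⟩
          pos := fun P k => S.pos P k.1
          od := ⟨S.od.co, fun P k => S.od.od P k.1⟩
          y1 := fun P k => S.y1 P k.1
          u0 := fun P k => S.u0 P k.1
          wi := fun ν h => (S.wi ν h).trans_eq (by
            congr 1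
            ext p
            refine and_congr_right fun _ => and_congr_right fun hp => ⟨?_, ?_⟩
            · rintro ⟨P, k, P', k', a, a', e⟩
              exact ⟨P, (ex p hp P a).2 k, P', (ex p hp P' a').2 k', a, a', e⟩
            · rintro ⟨P, k, P', k', a, a', e⟩
              exact ⟨P, k.1, P', k'.1, a, a', e⟩) }
      have hf' : Ef s (T \ X) J f := by
        obtain ⟨E, e1, e2⟩ := hf
        refine ⟨E, fun p => (e1 p).trans (and_congr_right fun hp => not_congr ⟨?_, ?_⟩), e2⟩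
        · rintro ⟨P, k, a⟩
          exact ⟨P, (ex p hp P a).2 k, a⟩
        · rintro ⟨P, k, a⟩
          exact ⟨P, k.1, a⟩
      have pw : 2 ^ Fintype.card (J ⊕ Fin r ⊕ Unit) ≤ 2 ^ (2 * B + 1) :=
        Nat.pow_le_pow_right (by norm_num) cd
      obtain ⟨φ, mφ, k1, k2⟩ := hm K c r ρ s y u (T \ X) G κ Q ξ' I J f
        (hd.trans (le_add_left (le_add_right (by omega))))
        (hJ.trans (le_add_left (le_add_right (by omega)))) S'
        hf' (by
          refine (ncard_le_ncard kt (Finset.finite_toSet _)).trans ?_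
          rw [ncard_coe_finset]
          exact (Finset.card_union_le t' t).trans (add_le_add (c'.trans pw)
            (tc.trans (by omega))))
      obtain ⟨b, l, b0, rfl⟩ := mo mφ
      refine ⟨l, fun P hP => ?_, ?_⟩
      · have k := fin.mem_toFinset.1 (ht' hP)
        have := k1 P ⟨⟨k.1, fun x => x.2 (by
          rw [Finset.coe_union]
          exact Or.inl hP)⟩, k.2⟩
        rwa [Pl.ord_smul _ b0, To.ord_mon P z0] at this
      · rw [mul_smul_comm, Pl.ord_smul _ b0,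
          Q.ord_mul (pow_ne_zero _ g0) (To.mon_ne z0 l), To.ord_mon Q z0] at k2
        linarith
  refine ⟨mon (zz s y J f) l, To.mon_ne z0 l, fun P hP => ?_, ?_⟩
  · rw [To.ord_mon P z0]
    by_cases k : P ∈ Kt s (Fin.append y u) T J
    · exact h1 P (fin.mem_toFinset.2 k)
    · have key : κ P = 0 ∧ ∀ a, P.ord (zz s y J f a) = 0 := by
        obtain ⟨E, e1, rfl⟩ := hf
        by_cases tv : Tv s (Fin.append y u) P
        · obtain ⟨hz, hy⟩ := ((Pq.fac60 c (r + ρ) K s _ fm.rat).2.2.2.2.2.2.2.2.1 P).1 tv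
          refine ⟨(S.pk.reg P hP tv).2, ?_⟩
          rintro (p | j | _)
          · exact hz p.1
          · have := hy (Fin.castAdd ρ j)
            rwa [Fin.append_left] at this
          · exact (Pl.ord_prod _ _ fun p _ => l0 p).trans (Finset.sum_eq_zero fun p _ => hz p)
        · have : ∃ p ∉ J, At s P (some p) := by
            by_contra x
            exact k ⟨hP, tv, fun p hp a => x ⟨p, hp, a⟩⟩
          obtain ⟨p, hp, a⟩ := this
          refine ⟨(S.od.od P hP p hp a).2.2, ?_⟩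
          rintro (p' | j | _)
          · exact at_ne a fun e => hp (e ▸ p'.2)
          · exact S.y1 P hP p hp a j (y0 j)
          · exact (Pl.ord_prod _ _ fun p _ => l0 p).trans (Finset.sum_eq_zero fun p' hp' =>
              at_ne a fun e => ((e1 p').1 hp').2 ⟨P, hP, e ▸ a⟩)
      simp only [key.1, key.2, mul_zero, Finset.sum_const_zero, le_refl]
  · rw [Q.ord_mul (pow_ne_zero _ g0) (To.mon_ne z0 l), To.ord_mon Q z0]
    linarith

end Vale.Agent.P283R.Tl

end
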