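import Vale.Agent.P283R.Tl.A42
import Vale.Agent.P283R.Tl.B42
import Vale.Agent.P283R.Tl.C42
import Vale.Agent.P283R.Tl.D42
import Vale.Agent.P283R.Cq.Hw42

/-!
# P283R, block TL: the theorem at one place, the scheme side
-/

open Set CategoryTheory AlgebraicGeometry

noncomputable section

namespace Vale.Agent.P283R.Tl

open Vale.Agent.P287D Vale.Agent.P283M Vale.Agent.P297Z Vale.Agent.P283M.Br Vale.Agent.P283R.Gl
open Pq (Tv cz CoY)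

/-- **WID** -/
theorem wid : WID := hlr62 drp47 car52 (c2r13 Tb.dic80 car52)
  (mor18 car52 gen8 pdx31 (w1r21 ind31) (w2r31 reg21))

/-- **PQ** -/
theorem one : PQ := pqr ord85 gt52 drp47 page85 nrm52 spl25 eqf78 reg21 wid

/-- the family as a set of places -/
theorem fm_set {K ι : Type} [Field K] [Algebra ℂ K] {c ρ : ℕ} {s : Fin c → K} {y : Fin ρ → K}
    {w : ι → Prop} {P : ι → Pl K} {T : Set (Pl K)} (fm : Fm s y w P) (inj : Function.Injective P)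
    (h : ∀ R, R ∈ T ↔ ∃ E, w E ∧ P E = R) : Fm s y (· ∈ T) id := by
  have al : ∀ {p : Pl K → Prop}, (∀ E, w E → p (P E)) → ∀ R ∈ T, p R := fun k R r => by
    obtain ⟨E, e, rfl⟩ := (h R).1 r
    exact k E e
  have fi : ∀ {p : Pl K → Prop}, {E | w E ∧ p (P E)}.Finite → {R | R ∈ T ∧ p R}.Finite :=
    fun k => (k.image P).subset fun R r => by
      obtain ⟨E, e, rfl⟩ := (h R).1 r.1
      exact ⟨E, ⟨e, r.2⟩, rfl⟩
  refine ⟨fm.rat, fun a => fi (p := fun R => R.ord a ≠ 0) (fm.fin a),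
    fi (p := fun R => cz s y R ≠ 0) fm.finc, al fm.inv,
    fun φ φ0 k => fm.lau φ φ0 fun E e => k (P E) ((h _).2 ⟨E, e, rfl⟩), fun a ha => ?_,
    al fm.kt, fm.mis.subset fun p k ⟨E, e, t⟩ => k ⟨P E, (h _).2 ⟨E, e, rfl⟩, t⟩, al fm.pg⟩
  obtain ⟨φ, φ0, e⟩ := fm.eqn (a ∘ P) (ha.preimage inj.injOn)
  exact ⟨φ, φ0, al e⟩

open Vale.Agent.P289 (Pt DForm dimension)
open Stm Stm.Var

/-- the prime divisors which are seen by `x` -/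
def Nx {X : Var} (W : X.X.Opens) (x : Pt X.X) (E : X.PrimeDiv) : Prop :=
  E.1 ∈ W ∧ ∀ a, (∀ x' ∈ W, RegAt a x') → 0 < ord a E → ¬ RegAt a⁻¹ x

theorem gk {X : Var} {W : X.X.Opens} {c l : ℕ} {s : Fin c → X.K} {x : Pt X.X} {Q : Pl X.K}
    {T : Set (Pl X.K)} (hT : ∀ R, R ∈ T ↔ ∃ E : X.PrimeDiv, E.1 ∈ W ∧ pq E = R) (hx : x ∈ W)
    (dm : Dom Q.ring x) (ov : Tb.Ovm W s) {D : Finset X.PrimeDiv} (d1 : D.card ≤ l)
    (d2 : ∀ E ∈ D, Nx W x E) (d3 : ∀ m, (∀ E ∈ D, 0 ≤ dt s (pq E) m) → ∀ E, Nx W x E →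
      0 ≤ dt s (pq E) m) : Gk l s (Aq s T Q) := by
  classical
  refine ⟨(D.filter fun E => ∃ i, (pq E).ord (s i) ≠ 0).image pq,
    Finset.card_image_le.trans ((Finset.card_filter_le _ _).trans d1), fun R k => ?_,
    fun m H R k => ?_⟩
  · obtain ⟨E, e, rfl⟩ := Finset.mem_image.1 k
    obtain ⟨e, i, e'⟩ := Finset.mem_filter.1 e
    obtain ⟨a, b⟩ := d2 E e
    refine ⟨(hT _).2 ⟨E, a, rfl⟩, (ov E a).resolve_right fun ⟨_, z⟩ => e' (z.2 i), ⟨i, e'⟩,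
      fun χ χ0 r p => not_le.1 fun z => ?_⟩
    have g : ∀ x' ∈ W, RegAt χ x' := fun x' h => har X _ x' fun F hF =>
      pq_ord F χ ▸ r _ ((hT _).2 ⟨F, hF.mem_open W.isOpen h, rfl⟩)
    exact b χ g (pq_ord E χ ▸ p) ((dm χ (g x hx)).2 χ0
      ((Pl.ord_nonneg_iff _ (inv_ne_zero χ0)).1 (by rw [Pl.ord_inv]; omega)))
  · obtain ⟨E, a, rfl⟩ := (hT R).1 k.1
    refine d3 m (fun F f => ?_) E ⟨a, fun χ g p z => ?_⟩
    · by_cases e : ∃ i, (pq F).ord (s i) ≠ 0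
      · exact H _ (Finset.mem_image_of_mem _ (Finset.mem_filter.2 ⟨f, e⟩))
      · simp [Tb.dt, show ∀ i, (pq F).ord (s i) = 0 from fun i => by_contra fun n => e ⟨i, n⟩]
    · rw [pq_ord] at p
      have χ0 : χ ≠ 0 := by
        rintro rfl
        simp at p
      have := k.2.2.2 χ χ0 (fun R r => by
        obtain ⟨F, f, rfl⟩ := (hT R).1 r
        exact Pl.ord_nonneg_of_mem _ ((pq_is F _).2 (g _ f))) p
      have w := Pl.ord_nonneg_of_mem _ (dm _ z).1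
      rw [Pl.ord_inv] at w
      omega

/-- **the scheme side** -/
theorem sch (l n q : ℕ) {ε : ℝ} (hq : 0 < q) (hε : 0 < ε) : ∃ M : ℕ, 1 ≤ M ∧
    ∀ (X Z : Var) (f : X.X ⟶ Z.X) (z : Pt Z.X) (V : Z.X.Opens) (ω : DForm ℂ X.K (n + 1))
      (B : X.QDiv) (c ρ : ℕ) (s : Fin c → X.K) (y : Fin ρ → X.K), dimension X.str = (n + 1 : ℕ) →
      ω.Nonzero → Pair (ε ≤ ·) ⊤ ω B → (∀ E, ∃ m : ℤ, q * B E = m) → Contraction f →
      FanoType f ω → NefOver f (-logCan ω B) → IsClosed ({z} : Set (Pt Z.X)) → IsAffineOpen V →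
      z ∈ V → CoY (f ⁻¹ᵁ V) s y → Tb.Ovm (f ⁻¹ᵁ V) s →
      (∀ x ∈ f ⁻¹ᵁ V, ∃ D : Finset X.PrimeDiv, D.card ≤ l ∧ (∀ E ∈ D, Nx (f ⁻¹ᵁ V) x E) ∧
        ∀ m, (∀ E ∈ D, 0 ≤ dt s (pq E) m) → ∀ E, Nx (f ⁻¹ᵁ V) x E → 0 ≤ dt s (pq E) m) →
      HasKltComplement f ω B M z := by
  obtain ⟨m, m2, H⟩ := one l (n + 1) q ε hq hε
  refine ⟨q * m, Nat.mul_pos hq (by omega), fun X Z f z V ω B c ρ s y hd hω hB hr hf hF hn hz hV
    zV co ov gn => Cq.H42.sch (Nat.mul_pos hq (by omega)) (fun u Λ Γ Γ' hK a hT cf lc nf => ?_)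
      hd hω hB hr hf hF hn hz hV zV⟩
  obtain ⟨x, hx⟩ := hf.2.2.1.surj z
  have hx' : x ∈ f ⁻¹ᵁ V := show f x ∈ V from hx ▸ zV
  obtain ⟨a1, a2, a3, a4, a5, a6, a7⟩ := Tb.fm96 co hx'
  have fm := fm_set (s := s) (y := y) ⟨a1, a2, a3, a4, a5, a6, a7,
    Tb.misr96 Tb.dic80 c ρ X _ s y x co hx' ov, ov⟩ Pq.S10.pq_inj hT
  have dim : c + ρ = n + 1 := Nat.cast_injective (a1.ff.trdeg.symm.trans hK.trdeg)
  obtain ⟨-, -, -, -, -, j, j0, ec⟩ := Pq.czr _ _ _ s y a1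
  obtain ⟨u', bs⟩ := Sch.basV hf hz hV zV
  refine Cq.H42.cpl (Tv := Tv s y) (Ho := Wc.Ho s y) (z := cz s y) hq hε m2 a
    ⟨⟨j, j0, dim ▸ ec⟩, fm.fin, fm.finc, fm.eqn, fm.kt, fun b b0 k Q => ?_⟩ cf lc nf
    fun g κ Q g0 h1 h2 h3 h4 h5 o => ?_
  · obtain ⟨G, hG, rfl⟩ := fm.lau b b0 k
    obtain ⟨v, v0, e⟩ := (Pq.sums _ _ _ s y a1).2.1 G Q b0
    exact ⟨_, ⟨v0, v, hG v⟩, e, fun P t n => fm.inv P t n G hG v v0⟩
  · obtain ⟨x', h', dm⟩ := bs.ctr Q.ring Q.con fun b hb => by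
      by_cases b0 : b = 0
      · exact b0 ▸ zero_mem _
      refine (Pl.ord_nonneg_iff _ b0).1 (o b b0 fun R r => ?_)
      obtain ⟨F, k, rfl⟩ := (hT R).1 r
      exact Pl.ord_nonneg_of_mem _ ((pq_is F _).2 (bs.reg b hb _ k))
    obtain ⟨D, d1, d2, d3⟩ := gn x' h'
    exact H X.K c ρ s y _ g κ Q ⟨dim, fm, g0, h1, h2, h3,
      fun Q ξ a b k => h4 Q ξ a b fun x ⟨x0, u, hx⟩ => k u x hx x0, h5⟩ o
      (gk hT h' dm ov d1 d2 d3)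

end Vale.Agent.P283R.Tl
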