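import Vale.Agent.P283R.Tl.E42
import Vale.Agent.P283R.Tb.Oq52
import Vale.Agent.P283R.Sl.Tl

/-!
# P283R, block TL: the class
-/

open Set CategoryTheory AlgebraicGeometry

noncomputable section

namespace Vale.Agent.P283R.Sl

open Var Tb.O52 Vale.Agent.P283R.Gl

theorem Tl42.tor {X Y : Var} {V : X.X.Opens} {φ : Y.K → X.K} {c r : ℕ} {y : Fin r → X.K}
    {s : Fin c → Y.K} {x : Pt X.X} (hx : x.In V)
    (a : ∀ x : Pt X.X, x.In V → ∃ U ≤ V, IsAffineOpen U ∧ x.In U ∧ Graded φ y (regOn U))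
    (b : ∀ E : X.PrimeDiv, E.1.In V → (∀ c, ord (φ c) E = 0) ∨
      ∃ (F : Y.PrimeDiv) (μ : ℤ), ∀ c, ord (φ c) E = μ * ord c F)
    (t : ∀ x : Pt Y.X, ∃ U, IsAffineOpen U ∧ x.In U ∧ Graded (algebraMap ℂ Y.K) s (regOn U)) :
    Pq.CoY (X := X.o) V (fun i => φ (s i)) y ∧ Tb.Ovm (X := X.o) V fun i => φ (s i) := by
  classical
  obtain ⟨-, -, -, -, ⟨ψ, rfl, iy⟩, -⟩ := a x hx
  have hs : AlgebraicIndependent ℂ s := by
    obtain ⟨-, -, -, ⟨ψ₀, e0, i⟩, -⟩ := t (genericPoint Y.X)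
    refine algebraicIndependent_iff.2 fun p hp => i p ?_
    rwa [show (ψ₀ : ℂ →+* Y.K) = algebraMap ℂ Y.K from RingHom.ext (congrFun e0)]
  have ty : TorY (X := Y.o) ⊤ s := ⟨hs, fun x _ => by
    obtain ⟨U, u1, u2, -, u3⟩ := t x
    obtain ⟨S, e, k⟩ := Tq.ring_reg (X := Y.o) hs u1 u2 fun g hg =>
      Submodule.span_mono (by
        rintro _ ⟨i, c, m, j⟩
        exact ⟨i, _, IntermediateField.algebraMap_mem _ c, m, j⟩) (u3 g hg)
    exact ⟨U, le_top, u1, u2, S, e, fun g => Set.ext_iff.1 k g⟩⟩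
  have hr := ty.rat (x := genericPoint Y.X) trivial
  let _ : Algebra Y.K X.K := ψ.toRingHom.toAlgebra
  have : IsScalarTower ℂ Y.K X.K := .of_algebraMap_eq fun c => (ψ.commutes c).symm
  have ai : AlgebraicIndependent Y.K y := algebraicIndependent_iff.2 iy
  have ev : ∀ g, MvPolynomial.aeval (fun i => ψ (s i)) g = ψ (MvPolynomial.aeval s g) := fun g =>
    (MvPolynomial.comp_aeval_apply s ψ g).symm
  have ind : Independent (Fin.append (fun i => ψ (s i)) y : Fin (c + r) → X.K) := by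
    have := (hs.sumElim_comp ai).comp _
      (finSumFinEquiv.symm.trans (Equiv.sumComm _ _)).injective
    refine (congrArg (fun z => AlgebraicIndependent ℂ (A := X.K) z) (funext fun i => ?_)).mp this
    induction i using Fin.addCases
    · simp
      rfl
    · simp
  refine ⟨Pq.S10.co_iff.2 ⟨ind, fun x hx => ?_⟩, fun E hE => ?_⟩
  · obtain ⟨U, u1, u2, u3, -, u4⟩ := a x hx
    refine ⟨U, u1, u2, u3, fun g hg => Submodule.span_mono ?_ (u4 g hg)⟩
    rintro _ ⟨i, c, m, j⟩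
    refine ⟨i, ψ c, ?_, m, j⟩
    have := IntermediateField.adjoin_map ℂ (range s) ψ
    rw [← range_comp] at this
    exact this ▸ mem_image_of_mem ψ (hr.gen c)
  · have eF : ∀ (F : Y.PrimeDiv) (g : Y.K), ord g F = (pq (X := Y.o) F).ord g := fun F =>
      pq_ord (X := Y.o) F
    have eE : ∀ g : X.K, ord g E = (pq (X := X.o) E).ord g := pq_ord (X := X.o) E
    have mv : (∀ g : Poly c, ∀ a ∈ g.support, ord (MvPolynomial.aeval (fun i => ψ (s i)) g) E ≤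
        ∑ i, a i * ord (ψ (s i)) E) → Tb.Mv (K := X.o.K) (fun i => ψ (s i)) (pq (X := X.o) E) :=
      fun k g m hm => by
        have := k g m hm
        simp only [eE] at this
        exact_mod_cast this
    obtain z | ⟨F, μ, z⟩ := b E hE
    · exact .inl (mv fun g a _ => by simp [ev, z])
    obtain ⟨π, p1, p2⟩ | k := prm ty F
    · refine (Tb.ova39 c _ _ _ π (Pq.ind_left96 ind) p1 fun g n => ?_).imp_left And.left
      refine (eE _).symm.trans ?_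
      rw [ev, z, eF]
      exact mul_eq_zero_of_right _ (p2 g n)
    · refine .inl (mv fun g a ha => ?_)
      have m0 := nn ψ (pq (X := X.o) E) (pq (X := Y.o) F) μ fun c => by rw [← eE, z, eF]
      simp only [ev, z, eF, mul_left_comm _ μ, ← Finset.mul_sum]
      exact mul_le_mul_of_nonneg_left (k g a ha) m0

theorem Tl42.on (M : ℕ → ℕ) : OnN fun d X _ f _ _ z => ∃ V, z.In V ∧ IsAffineOpen V ∧
    ∃ (c r : ℕ) (s : Fin c → X.K) (y : Fin r → X.K), Pq.CoY (X := X.o) (pre f V) s y ∧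
      Tb.Ovm (X := X.o) (pre f V) s ∧ ∀ x ∈ pre f V, ∃ D : Finset X.o.PrimeDiv, D.card ≤ M d ∧
        (∀ E ∈ D, Tl.Nx (X := X.o) (pre f V) x E) ∧
        ∀ m, (∀ E ∈ D, 0 ≤ Tb.dt (K := X.o.K) s (pq E) m) →
          ∀ E, Tl.Nx (X := X.o) (pre f V) x E → 0 ≤ Tb.dt (K := X.o.K) s (pq E) m := by
  intro d hd ε hε R hR
  obtain ⟨n, rfl⟩ : ∃ n, d = n + 1 := ⟨d - 1, by omega⟩
  obtain ⟨N, N1, H⟩ := Tl.sch (M (n + 1)) n (∏ r ∈ R, r.den)
    (Finset.prod_pos fun r _ => r.den_pos) hε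
  exact ⟨N, N1, fun X Z f ω B z a b c e s u ⟨u1, u2, V, zV, hV, c', r, s', y, k1, k2, k3⟩ =>
    (has_iff f ω B N z).2 (H X.o Z.o f z V ω B c' r s' y a b ((pair_iff _ _ ω B).1 c) (C3.den e) s
      ((fanoType_iff f ω).1 u1) ((nefOver_iff f _).1 u2) u hV zV k1 k2 k3)⟩

/-- orbit spaces which are toric or have few Cox generators -/
theorem onN_ob (M : ℕ → ℕ) : OnN fun d _ _ f _ _ z => ∃ V, z.In V ∧ IsAffineOpen V ∧
    OrbitBase (M d) (pre f V) := by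
  classical
  intro d hd ε hε R hR
  obtain ⟨n, hn, H⟩ := ((Tl42.on M).or (onN_oq M)) d hd ε hε R hR
  refine ⟨n, hn, fun X Z f ω B z a b c i s t ⟨u, v, V, p, hV, Y, φ, r, y, q1, q2, q⟩ =>
    H X Z f ω B z a b c i s t ⟨u, v, ?_⟩⟩
  obtain ⟨c', s', q3, q4⟩ | q := q
  · obtain ⟨x, hx⟩ := s.2.2.1.surj z
    have k := Tl42.tor (x := x) (show f x ∈ V from hx ▸ p) q1 q2 q3
    refine .inl ⟨V, p, hV, c', r, _, y, k.1, k.2, fun x hx => ?_⟩
    obtain ⟨D, d1, d2⟩ := q4 x hx _ rfl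
    have e : ∀ (E : X.PrimeDiv) m, Tb.dt (K := X.o.K) (fun i => φ (s' i)) (pq (X := X.o) E) m =
        ∑ i, m i * ord (φ (s' i)) E := fun E m =>
      Finset.sum_congr rfl fun i _ => congrArg _ (pq_ord (X := X.o) E _).symm
    refine ⟨D.image Subtype.val, Finset.card_image_le.trans d1, fun E k => ?_, fun m k E j => ?_⟩
    · obtain ⟨F, -, rfl⟩ := Finset.mem_image.1 k
      exact F.2
    · exact e E m ▸ d2 m (fun F w => e F m ▸ k _ (Finset.mem_image_of_mem _ w)) E j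
  · exact .inr ⟨V, p, Y, φ, r, y, q1, q2, .inr q⟩

/-- the old word is contained -/
theorem OrbitQuot.base {l : ℕ} (hl : 8 ≤ l) {X : Var} {V : X.X.Opens} (h : OrbitQuot l V) :
    OrbitBase l V := by
  classical
  obtain ⟨Y, φ, r, y, q1, q2, q⟩ := h
  refine ⟨Y, φ, r, y, q1, q2, q.imp_left fun ⟨s, t⟩ => ⟨2, s, t, fun x _ N _ => ?_⟩⟩
  obtain ⟨ψ, e⟩ : ∃ ψ : N → Fin 2 → ℤ, ∀ E i, ψ E i = ord (φ (s i)) E.1 := ⟨_, fun _ _ => rfl⟩
  have fi : {E : N | ∃ i, ord (φ (s i)) E.1 ≠ 0}.Finite :=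
    ((finite_iUnion fun i => P283M.Br.fin X.o (φ (s i))).preimage
      Subtype.val_injective.injOn).subset fun E ⟨i, k⟩ => mem_iUnion.2 ⟨i, k⟩
  obtain ⟨D, -, d2, d3⟩ := Tb.few2 le_rfl fi.toFinset ψ
  refine ⟨D, d2.trans hl, fun m k E j => ?_⟩
  by_cases z : ∃ i, ord (φ (s i)) E ≠ 0
  · simpa only [e, dotProduct] using d3 m (fun F w => by simpa only [e, dotProduct] using k F w) ⟨E, j⟩
      (fi.mem_toFinset.2 z)
  · simp [show ∀ i, ord (φ (s i)) E = 0 from fun i => by_contra fun n => z ⟨i, n⟩]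

end Vale.Agent.P283R.Sl
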