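import Vale.Agent.P283R.Tl.St
import Vale.Agent.P283R.Pq.All
import Vale.Agent.P283R.Wc.Spr25

/-!
# P283R, block TL: the reduction to the wide state
-/

set_option linter.all false

noncomputable section

section

open Set

namespace Vale.Agent.P283R.Tl

/-- **CAR** -/
theorem car52 : CAR := fun _ _ _ _ _ _ _ _ J fm => by
  classical
  exact ⟨Tb.G68.fin_kt fm.rat fm.fin (fun P a => (fm.pg P a).imp_right fun ⟨p, h⟩ => ⟨p, h.1⟩) J,
    _, fm.mis.toFinset.filter (· ∉ J), fun p => by simp [and_comm], rfl⟩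

/-- **GT** -/
theorem gt52 : GT := fun _ _ _ _ _ _ _ _ _ _ _ Q fm o ov =>
  Tb.G68.gtt fm.rat fm.fin (fun P a => (fm.pg P a).imp_right fun ⟨p, h⟩ => ⟨p, h.1⟩) o.od.co o.ex
    (fun P a p n b => ⟨(o.od.od P a p n b).1,
      fun j => o.y0 P a p n b j (Pq.F60.y_ne fm.rat.ind j)⟩) Q ov

end Vale.Agent.P283R.Tl

end

section

open Set

namespace Vale.Agent.P283R.Tl

open Vale.Agent.P287D Vale.Agent.P283M

/-- **DRP** -/
theorem drp47 : DRP := by
  intro K _ _ c ρ s y T d q ε g κ X h hf hX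
  have F := h.fm
  refine ⟨h.dim, ?_, h.g0, fun P p => h.reg P p.1, h.fin.subset fun P p => ⟨p.1.1, p.2⟩,
    fun P p => h.eff P p.1, fun Q ξ a b => h.hw Q ξ a fun E e => ⟨(b E e).1.1, (b E e).2⟩,
    fun a h₀ X' k e t a0 h0 f' ie => ?_⟩
  · refine ⟨F.rat, fun a => (F.fin a).subset fun P p => ⟨p.1.1, p.2⟩,
      F.finc.subset fun P p => ⟨p.1.1, p.2⟩, fun E e => F.inv E e.1, fun φ φ0 k => F.lau φ φ0
        fun E e t => k E ⟨e, fun x => hX E x t⟩ t, fun a f =>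
      let ⟨φ, φ0, k⟩ := F.eqn a f; ⟨φ, φ0, fun E e => k E e.1⟩, fun E e => F.kt E e.1,
      (F.mis.union (hf.biUnion (t := fun E => {p | Pq.At s E (some p)}) fun E _ =>
        Set.Subsingleton.finite fun p a p' b => by_contra fun ne => ?_)).subset fun p a => ?_,
      fun E e => F.pg E e.1⟩
    · have k : E.ord (Pq.lam s p) = Pq.mu s E (some p') * Finsupp.single p (1 : ℤ) p' := b.2 p
      have k' : 0 < E.ord (Pq.lam s p) := a.1
      rw [Finsupp.single_eq_of_ne (Ne.symm ne), mul_zero] at k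
      omega
    · by_contra w
      rw [mem_union, not_or] at w
      obtain ⟨E, e, b⟩ := not_not.1 w.1
      exact a ⟨E, ⟨e, fun x => w.2 (mem_biUnion x b)⟩, b⟩
  · rw [Set.diff_diff]
    exact h.av a h₀ (X ∪ X') k e t a0 h0 (hf.union f') ie

end Vale.Agent.P283R.Tl

end

section

open Set

namespace Vale.Agent.P283R.Tl

open Vale.Agent.P287D Vale.Agent.P283M
open Pq (Hm Hg tot Tv At cz fr)
open Wc (Eqf)
open Wc.E78 (hg sy tv ho)

theorem Fm.eqf78 {K : Type} [Field K] [Algebra ℂ K] {c ρ ρ' : ℕ} {s : Fin c → K} {y : Fin ρ → K}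
    {y' : Fin ρ' → K} {ι : Type} {w : ι → Prop} {P : ι → Pl K} (f : Fm s y w P) (h : Eqf s y y') :
    Fm s y' w P := by
  have t := tv h
  obtain ⟨-, r, z, e, h⟩ := h
  have z' : cz s y' = cz s y := funext z
  refine ⟨r, f.fin, z' ▸ f.finc, fun E a b G g u u0 => ?_, fun φ φ0 k => ?_, t ▸ f.eqn,
    fun E a b => z' ▸ f.kt E a (t ▸ b), f.mis, f.pg⟩
  · obtain ⟨G', g1, g2, g3⟩ := hg e.symm (sy e h) g
    rw [← g3, ← g2]
    exact f.inv E a (t ▸ b) G' g1 _ (g2 u ▸ u0)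
  · obtain ⟨G, g, rfl⟩ := f.lau φ φ0 (t ▸ k)
    obtain ⟨G', g1, -, g3⟩ := hg e h g
    exact ⟨G', g1, g3.symm⟩

theorem eqf78 : EQF := fun K _ _ c ρ s y T ρ' y' h => by
  have t := tv h
  have z : cz s y' = cz s y := funext h.2.2.1
  refine ⟨fun d q ε g κ p => ⟨h.1 ▸ p.dim, p.fm.eqf78 h, p.g0, t ▸ p.reg, p.fin, z ▸ p.eff,
    fun Q ξ a b k => ?_, z ▸ p.av⟩, (Wc.eqf78 K c ρ s y T ρ' y' h).2⟩
  obtain ⟨-, -, -, e, h⟩ := h
  rw [z]
  exact p.hw Q ξ a (t ▸ b) fun u x hx => k (e u) x (h u ▸ hx)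

end Vale.Agent.P283R.Tl

end

section

open Set

namespace Vale.Agent.P283R.Tl

open Vale.Agent.P287D Vale.Agent.P283M
open Pq hiding Fm

theorem ord85 : ORD := by
  intro K _ _ c ρ s y T d q ε g κ x
  obtain ⟨G, hG, e⟩ := x.fm.lau g x.g0 fun P a b => (x.reg P a b).1
  obtain ⟨p1, p2, -⟩ := pol c
  have f1 : {p : Pg c | ∃ i : Fin c, p.l ∣ MvPolynomial.X i}.Finite := by
    rw [ofPred_exists]
    refine finite_iUnion fun i => Set.Subsingleton.finite fun p a p' b => p2 _ _ (a.trans ?_)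
    exact ((p1 p').1.irreducible.associated_of_dvd MvPolynomial.X_prime.irreducible b).symm.dvd
  let B : Set (Pl K) := ({P | P ∈ T ∧ cz s y P ≠ 0} ∪ {P | P ∈ T ∧ κ P ≠ 0}) ∪
    ((⋃ i, {P | P ∈ T ∧ P.ord (y i) ≠ 0}) ∪ ⋃ u ∈ G.support, {P | P ∈ T ∧ P.ord (G u) ≠ 0})
  have f2 : B.Finite := (x.fm.finc.union x.fin).union ((finite_iUnion fun i => x.fm.fin _).union
    (G.support.finite_toSet.biUnion fun u _ => x.fm.fin _))
  have f3 : (⋃ P ∈ B, {p : Pg c | At s P (some p)}).Finite := f2.biUnion fun P _ =>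
    Set.Subsingleton.finite fun p a p' b =>
      Option.some.inj ((fac c ρ K s y x.fm.rat).2.2.2.1 P _ _ a b)
  have f4 := x.fm.mis.union (f1.union f3)
  have nb : ∀ P p, p ∉ f4.toFinset → At s P (some p) → P ∉ B := fun P p n a b =>
    n (f4.mem_toFinset.2 (.inr (.inr (mem_biUnion b a))))
  refine ⟨G, f4.toFinset, e, hG, fun p n => by_contra fun z => n (f4.mem_toFinset.2 (.inl z)),
    ⟨fun i p a => f4.mem_toFinset.2 (.inr (.inl ⟨i, a⟩)), fun P t p n a => ?_⟩,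
    fun P t p n a i _ => by_contra fun z => nb P p n a (.inr (.inl (mem_iUnion.2 ⟨i, t, z⟩))),
    fun P t p n a u u0 => by_contra fun z => nb P p n a
      (.inr (.inr (mem_biUnion (Finsupp.mem_support_iff.2 u0) ⟨t, z⟩)))⟩
  have z1 : cz s y P = 0 := by_contra fun z => nb P p n a (.inl (.inl ⟨t, z⟩))
  have z2 := (czr c ρ K s y x.fm.rat).1 P p a
  have z3 := a.1
  exact ⟨by omega, z1, by_contra fun z => nb P p n a (.inl (.inr ⟨t, z⟩))⟩

end Vale.Agent.P283R.Tl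

end

section

open Set

namespace Vale.Agent.P283R.Tl

open Vale.Agent.P287D Vale.Agent.P297Z
open Pq (Hm Hg tot Tv cz)
open Wc (Sec Av Dr)

/-- **NRM** -/
theorem nrm52 : NRM := by
  intro K _ _ c ρ s y T d q ε G κ u pk hg a0
  obtain ⟨G', hG, e, v⟩ := Pq.L80.shift (Pq.I80.y_ne pk.fm.rat.1) (Pq.L80.hm_inv (hg u)) hg
  have g0 := pk.g0
  have eo : ∀ P : Pl K, P.ord (tot G') = P.ord (tot G) - P.ord (G u) := fun P => by
    rw [e, Pl.ord_mul _ (inv_ne_zero a0) g0, Pl.ord_inv]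
    ring
  have ed : ∀ a : K, tot G' / a = tot G / (G u * a) := fun a => by
    rw [e, div_mul_eq_div_div, div_eq_inv_mul (tot G)]
  have ea : ∀ (P : Pl K) (a : K), a ≠ 0 →
      κ P + P.ord (G u) + P.ord a = κ P + P.ord (G u * a) := fun P a h => by
    rw [Pl.ord_mul _ a0 h, add_assoc]
  refine ⟨G', hG, ?_, ⟨pk.dim, pk.fm, e ▸ mul_ne_zero (inv_ne_zero a0) g0, fun P p t => ?_,
    (pk.fin.union (pk.fm.fin (G u))).subset fun P h => ?_, fun P p => ?_, fun Q ξ nn sp le => ?_,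
    fun a h₀ X k r t ha h0 fX inj m z fr kp => ?_⟩, fun m z Q ⟨φ, φ0, h1, h2⟩ => ?_⟩
  · have := v u
    rw [neg_add_cancel] at this
    rw [this]
    exact mul_ne_zero (inv_ne_zero a0) a0
  · rw [eo, t u _ (hg u) a0, (pk.reg P p t).2, sub_zero]
    exact ⟨(pk.reg P p t).1, rfl⟩
  · by_contra w
    rw [mem_union, not_or] at w
    exact h.2 (by rw [not_not.1 fun x => w.1 ⟨h.1, x⟩, zero_add]
                  exact not_not.1 fun x => w.2 ⟨h.1, x⟩)
  · have := pk.eff P p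
    rw [eo]
    omega
  · have a := pk.hw Q ξ nn sp le
    have b := le u _ (hg u) a0
    have f : ∑ᶠ E, ξ E * ((κ E + E.ord (G u) : ℤ) : ℝ) =
        ∑ᶠ E, ξ E * (κ E : ℝ) + ∑ᶠ E, ξ E * ((id E).ord (G u) : ℝ) := by
      rw [← finsum_add_distrib
        (pk.fin.subset fun E h => ⟨(sp E (left_ne_zero_of_mul h)).1,
          Int.cast_ne_zero.1 (right_ne_zero_of_mul h)⟩)
        ((pk.fm.fin (G u)).subset fun E h => ⟨(sp E (left_ne_zero_of_mul h)).1,
          Int.cast_ne_zero.1 (right_ne_zero_of_mul h)⟩)]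
      exact finsum_congr fun E => by rw [Int.cast_add, mul_add, id]
    rw [f, eo, Int.cast_sub]
    linarith
  · simp only [ed, ea _ _ ha]
    exact pk.av (G u * a) h₀ X k r t (mul_ne_zero a0 ha) h0 fX inj m
      (fun P p n => ⟨(z P p n).1, (ea P a ha).symm.trans (z P p n).2⟩) fr kp
  · refine ⟨(G u)⁻¹ ^ m * φ, mul_ne_zero (pow_ne_zero _ (inv_ne_zero a0)) φ0, fun P p => ?_, ?_⟩
    · have := h1 P p
      rw [Pl.ord_mul _ (pow_ne_zero _ (inv_ne_zero a0)) φ0, Pl.ord_pow, Pl.ord_inv]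
      linarith
    · rwa [← mul_assoc, ← mul_pow, mul_comm (tot G), ← e]

end Vale.Agent.P283R.Tl

end

section

open Set

namespace Vale.Agent.P283R.Tl

open Vale.Agent.P287D Vale.Agent.P283M

theorem reg21 : REG := by
  intro K _ _ c ρ s y T Q ξ φ fm rp φ0 h
  obtain ⟨G, hG, rfl⟩ := fm.lau φ φ0 fun E w _ => h E w
  obtain ⟨u, u0, le⟩ := (Pq.sums c ρ K s y fm.rat).2.1 G Q φ0
  have e := rp.eq (G u) ⟨u0, u, hG u⟩
  have o : ∀ P, ξ P ≠ 0 → P.ord (Pq.tot G) ≤ P.ord (G u) := fun P z =>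
    fm.inv P (rp.sup P z).1 (rp.sup P z).2 G hG u u0
  have nn : ∀ P, 0 ≤ ξ P * (P.ord (G u) : ℝ) := fun P => by
    by_cases z : ξ P = 0
    · rw [z, zero_mul]
    · exact mul_nonneg (rp.nn P) (Int.cast_nonneg ((h P (rp.sup P z).1).trans (o P z)))
  have fi : (Function.support fun P => ξ P * (P.ord (G u) : ℝ)).Finite :=
    (fm.fin (G u)).subset fun P b => ⟨(rp.sup P (left_ne_zero_of_mul b)).1,
      Int.cast_ne_zero.1 (right_ne_zero_of_mul b)⟩
  refine ⟨le_trans (by exact_mod_cast (finsum_nonneg nn).trans_eq e) le, fun P x0 p0 => ?_⟩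
  have k : 0 < ξ P * (P.ord (G u) : ℝ) :=
    mul_pos x0 (Int.cast_pos.2 (p0.trans_le (o P x0.ne')))
  exact lt_of_lt_of_le (by exact_mod_cast (k.trans_le (single_le_finsum P fi nn)).trans_eq e) le

end Vale.Agent.P283R.Tl

end

section

open Set Matrix

namespace Vale.Agent.P283R.Tl

open Vale.Agent.P287D Vale.Agent.P297Z
open Vale.Agent.P283R.To (mon ord_prod)
open Pq (Hm At cz lam mu fr Pg)

open Wc.S25 in
theorem spl25 : SPL := by
  classical
  have tws := Wc.tws90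
  intro W d C₀
  choose C hC using fun ρ => Wd.gap W ρ C₀
  refine ⟨(Finset.range (d + 1)).sup C, fun K _ _ c ρ s y T κ I J₀ hd fm h0 od un => ?_⟩
  let o : Pl K → Fin ρ → ℤ := fun P j => P.ord (y j)
  let E : Pg c → Set (Fin ρ → ℤ) := fun p =>
    {e | ∃ P ∈ T, ∃ P' ∈ T, At s P (some p) ∧ At s P' (some p) ∧ e = o P - o P'}
  obtain ⟨J, j1, -, j3, j4⟩ := hC ρ I E J₀ h0
  have j5 : J.card ≤ (Finset.range (d + 1)).sup C :=
    j3.trans (Finset.le_sup (f := C) (Finset.mem_range.2 (by omega)))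
  obtain ⟨r, ρ', rfl, A, B, hA, hB, hL⟩ := Wd.lat (lt (I \ J) E) fun n m n0 h p hp e he => by
    have := h p hp e he
    rw [dotProduct_smul, smul_eq_mul] at this
    exact (mul_eq_zero.1 this).resolve_left n0
  have k : ∀ m : Fin (r + ρ') → ℤ, m ᵥ* A ∈ lt (I \ J) E ↔ ∀ j, m (Fin.natAdd r j) = 0 := fun m => by
    rw [hL, Matrix.vecMul_vecMul, hA, Matrix.vecMul_one]
    rfl
  have y0 := Pq.B25.y_ne fm.rat
  have om : ∀ (P : Pl K) i, P.ord (mon y (A i)) = o P ⬝ᵥ A i := fun P i => by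
    rw [Pq.B25.ord_bas fm.rat, dotProduct_comm]
  have oz : ∀ P ∈ T, ∀ p ∉ I, At s P (some p) → ∀ i, P.ord (mon y (A i)) = 0 := fun P hP p hp a i => by
    rw [om, show o P = 0 from funext fun j => un P hP p hp a j (y0 j), zero_dotProduct]
  let F := (I \ J).filter fun p => ∃ P ∈ T, At s P (some p)
  have ex : ∀ p, ∃ P : Option (Pl K), p ∈ F → ∃ P', P = some P' ∧ P' ∈ T ∧ At s P' (some p) :=
    fun p => by
      by_cases h : p ∈ F
      · obtain ⟨P, a, b⟩ := (Finset.mem_filter.1 h).2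
        exact ⟨some P, fun _ => ⟨P, rfl, a, b⟩⟩
      · exact ⟨none, fun a => (h a).elim⟩
  choose R hR using ex
  let w : Pg c → Fin r → ℤ := fun p i => (R p).elim 0 fun P => o P ⬝ᵥ A (Fin.castAdd ρ' i)
  let φ : Fin r → K := fun i => ∏ p ∈ F, lam s p ^ (-w p i)
  have l0 : ∀ p ∈ F, lam s p ≠ 0 := fun p hp =>
    let ⟨_, _, _, a⟩ := hR p hp
    lam_ne a
  have φ0 : ∀ i, φ i ≠ 0 := fun i => Finset.prod_ne_zero_iff.2 fun p hp => zpow_ne_zero _ (l0 p hp)
  have φ1 : ∀ i, φ i ∈ IntermediateField.adjoin ℂ (range s) := fun i =>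
    prod_mem fun p _ => by
      have : lam s p ∈ IntermediateField.adjoin ℂ (range s) :=
        IntermediateField.algebra_adjoin_le_adjoin ℂ _ (by
          rw [Algebra.adjoin_range_eq_range_aeval]
          exact ⟨p.l, rfl⟩)
      exact zpow_mem this _
  have e : Fin.append (fun i => φ i * mon y (A (Fin.castAdd ρ' i)))
      (fun i => mon y (A (Fin.natAdd r i))) =
      fun i => Fin.append φ (fun _ : Fin ρ' => (1 : K)) i * mon y (A i) := funext fun i => by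
    refine Fin.addCases (fun i => ?_) (fun i => ?_) i <;> simp
  obtain ⟨b1, -, b3, -, b5⟩ := Pq.B25.bas fm.rat hB
  obtain ⟨t1, t2, t3⟩ := tws K c _ s (fun i => mon y (A i)) T
    (Fin.append φ fun _ : Fin ρ' => (1 : K)) b1 fun i => by
      refine Fin.addCases (fun i => ?_) (fun i => ?_) i
      · rw [Fin.append_left]
        exact ⟨φ0 i, φ1 i⟩
      · rw [Fin.append_right]
        exact ⟨one_ne_zero, one_mem _⟩
  refine ⟨J, r, ρ', fun i => φ i * mon y (A (Fin.castAdd ρ' i)), fun i => mon y (A (Fin.natAdd r i)),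
    j1, j5, ⟨rfl, e ▸ t1, fun P => ?_, { Pq.B25.ev hB with
      map_add' := fun a b => Matrix.add_vecMul B a b }, fun m => ?_⟩, fun P hP p hp a i _ => ?_,
    fun P hP p hp a i _ => oz P hP p hp a _, fun ν ν0 => ?_⟩
  · rw [e, t2, b5]
  · rw [e, t3]
    exact b3 m
  · have m1 := (od.od P hP p (fun h => hp (j1 h)) a).1
    have oφ : P.ord (φ i) = if p ∈ F then -w p i else 0 := by
      rw [P.ord_prod _ fun p hp => zpow_ne_zero _ (l0 p hp)]
      simp only [Pl.ord_zpow, ord_lam a m1, mul_ite, mul_one, mul_zero]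
      rw [Finset.sum_ite_eq']
    rw [Pl.ord_mul _ (φ0 i) (To.mon_ne y0 _), oφ]
    by_cases hI : p ∈ I
    · have hF : p ∈ F := Finset.mem_filter.2 ⟨Finset.mem_sdiff.2 ⟨hI, hp⟩, P, hP, a⟩
      obtain ⟨P', e1, e2, e3⟩ := hR p hF
      have mem := (k (Pi.single (Fin.castAdd ρ' i) 1)).2 fun j => Pi.single_eq_of_ne (fun h => by
        have := congrArg Fin.val h
        rw [Fin.val_natAdd, Fin.val_castAdd] at this
        omega) _
      rw [Matrix.single_one_vecMul] at mem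
      have := mem p (Finset.mem_sdiff.2 ⟨hI, hp⟩) _ ⟨P, hP, P', e2, a, e3, rfl⟩
      rw [sub_dotProduct] at this
      rw [if_pos hF, om]
      simp only [w, e1, Option.elim_some]
      change o P ⬝ᵥ A (Fin.castAdd ρ' i) - o P' ⬝ᵥ A (Fin.castAdd ρ' i) = 0 at this
      linarith
    · rw [if_neg fun h => hI (Finset.mem_sdiff.1 (Finset.mem_filter.1 h).1).1, oz P hP p hI a,
        add_zero]
  · have ou : ∀ P : Pl K, (fun i => P.ord (mon y (A (Fin.natAdd r i)))) ⬝ᵥ ν =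
        o P ⬝ᵥ (Fin.append 0 ν ᵥ* A) := fun P => by
      rw [dotProduct_comm (o P), ← Matrix.dotProduct_mulVec, dotProduct, dotProduct,
        Fin.sum_univ_add]
      simp only [Fin.append_left, Fin.append_right, Pi.zero_apply, zero_mul, Finset.sum_const_zero,
        zero_add, om]
      exact Finset.sum_congr rfl fun i _ => by rw [mul_comm, dotProduct_comm]; rfl
    refine ((j4 (Fin.append 0 ν ᵥ* A)).resolve_left fun h => ν0 (funext fun j => ?_)).trans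
      (le_of_eq ?_)
    · simpa using (k _).1 h j
    · rw [← Set.ncard_coe_finset]
      congr 1
      ext p
      simp only [Finset.coe_filter, Finset.mem_sdiff, mem_ofPred_eq, ou, and_assoc]
      refine and_congr_right fun _ => and_congr_right fun _ => ⟨?_, ?_⟩
      · rintro ⟨_, ⟨P, hP, P', hP', a, a', rfl⟩, h⟩
        exact ⟨P, hP, P', hP', a, a', fun e => h (by rw [sub_dotProduct, e, sub_self])⟩
      · rintro ⟨P, hP, P', hP', a, a', h⟩
        exact ⟨_, ⟨P, hP, P', hP', a, a', rfl⟩, fun e => h (by rwa [sub_dotProduct, sub_eq_zero] at e)⟩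

end Vale.Agent.P283R.Tl

end

section

open Set

namespace Vale.Agent.P283R.Tl

open Vale.Agent.P287D Vale.Agent.P283M
open Pq (At Pg)

theorem f1_85 {c ρ : ℕ} {K : Type} [Field K] [Algebra ℂ K] {s : Fin c → K} {y : Fin ρ → K}
    {T : Set (Pl K)} (F : Fm s y (· ∈ T) id) : Tb.C85.F1 s y T :=
  { rat := F.rat
    fin := F.fin
    finc := F.finc
    inv := F.inv
    mis := F.mis.subset fun _ h => h.2
    pg := fun E a => Tb.C85.pg_nc F.rat ((F.pg E a).imp id fun ⟨p, h⟩ => ⟨p, h.1⟩) }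

/-- **PAGE** -/
theorem page85 : PAGE := fun l d q hq => ⟨q * (d + l) * (d + 2) + d,
  fun K _ _ c ρ s y T ε G κ I Q ξ ε0 pk od rp ps gk => by
  classical
  obtain ⟨-, -, -, f4, f5, -⟩ := Pq.fac c ρ K s y pk.fm.rat
  obtain ⟨c1, -⟩ := Pq.czr c ρ K s y pk.fm.rat
  obtain ⟨D, hD, d1, d2⟩ := gk
  obtain ⟨u, hu, J, h1, h2⟩ := Tb.C85.hel (Q := Q) (ζ := ξ) (Is := D) Tb.gp0 (f1_85 pk.fm) ε0.le hq
    od.hg pk.g0 pk.hw pk.fin
    (fun E a => by
      have := pk.eff E a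
      omega) ⟨rp.nn, rp.sup, fun u x hx x0 => rp.eq x ⟨x0, u, hx⟩,
      fun P a => ⟨(d1 a).2, (d1 a).1⟩, fun a h E z m => d2 a h E ⟨z, m⟩⟩
  obtain ⟨f, hf⟩ : ∃ f : Fin c → Option (Pg c), ∀ i (p : Pg c), p.l ∣ MvPolynomial.X i →
      f i = some p := by
    refine ⟨fun i => if h : ∃ p : Pg c, p.l ∣ MvPolynomial.X i then some h.choose else none,
      fun i p h => ?_⟩
    have e : ∃ p : Pg c, p.l ∣ MvPolynomial.X i := ⟨p, h⟩
    have x := (MvPolynomial.X_prime (R := ℂ) (i := i)).irreducible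
    simp only [dif_pos e]
    exact congrArg some ((Pq.pol c).2.1 _ _ (e.choose_spec.trans
      (((Pq.pol c).1 p).1.irreducible.dvd_symm x h)))
  have co : ∀ i (p : Pg c), p.l ∣ MvPolynomial.X i →
      p ∈ J ∪ (Finset.univ.image f).eraseNone := fun i p h => by
    simp only [Finset.mem_eraseNone, Finset.mem_union, Finset.mem_image]
    exact .inr ⟨i, Finset.mem_univ i, hf i p h⟩
  refine ⟨u, J ∪ (Finset.univ.image f).eraseNone, hu, (Finset.card_union_le _ _).trans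
    (Nat.add_le_add (h1.trans ?_) ((Finset.card_eraseNone_le _).trans
      (Finset.card_image_le.trans ?_))), co, fun P a p n b => ?_⟩
  · have := pk.dim
    exact Nat.mul_le_mul (Nat.mul_le_mul_left _ (Nat.add_le_add (by omega) hD)) (by omega)
  · have := pk.dim
    simp only [Finset.card_univ, Fintype.card_fin]
    omega
  by_cases z : p ∈ I
  · obtain ⟨k1, k2⟩ := h2 P a p (fun i h => n (co i p h)) b
      ⟨P, (ps P ⟨a, (f5 _ _ b).1, fun p' m k =>
        m (Option.some.inj (f4 _ _ _ b k) ▸ z)⟩).ne', b⟩ fun k => n (Finset.mem_union_left _ k)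
    have a1 := c1 _ p b
    have a2 := pk.eff P a
    have a3 := pk.fm.inv P a (f5 _ _ b).1 G od.hg u hu
    simp only [id] at k1 k2 a3
    refine ⟨k1, le_antisymm (by nlinarith) (by omega), by omega⟩
  · obtain ⟨k1, k2, k3⟩ := od.od.od P a p z b
    exact ⟨k1, k2, by rw [k3, od.g0 P a p z b u hu, add_zero]⟩⟩

end Vale.Agent.P283R.Tl

end

section

open Set

namespace Vale.Agent.P283R.Tl

open Vale.Agent.P287D Vale.Agent.P283M Cx Cy
open Pq (Hm Hg tot Tv At cz lam mu fr Pg)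
open Wc (Or)

/-- **PQR** -/
theorem pqr (ord : ORD) (gt : GT) (drp : DRP) (page : PAGE) (nrm : NRM) (spl : SPL) (eqf : EQF)
    (reg : REG) (wid : WID) : PQ := by
  have rpr := Wc.rpr65
  intro l d q ε hq hε
  obtain ⟨C₀, hC₀⟩ := page l d q hq
  choose W m m2 hW using fun j : ℕ => wid (j + d + l) q ε hq hε
  obtain ⟨C, hC⟩ := spl W d C₀
  have mp : ∀ j, 0 < m j := fun j => lt_of_lt_of_le two_pos (m2 j)
  refine ⟨∏ j ∈ Finset.range (C + 1), m j, (m2 0).trans (Nat.le_of_dvd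
    (Finset.prod_pos fun j _ => mp j) (Finset.dvd_prod_of_mem _ (by simp))), ?_⟩
  intro K _ _ c ρ s y T g κ Q pk ov gq
  obtain ⟨G, I, rfl, o⟩ := ord K c ρ s y T d q ε g κ pk
  obtain ⟨X, χ, ξ, Xf, XK, χ0, χT, χX, χQ, rep, pos⟩ := gt K c ρ s y T G κ I Q pk.fm o ov
  have pk1 := drp K c ρ s y T d q ε _ κ X pk Xf fun P h => (XK h).2.1
  have o1 : Or s y (T \ X) G κ I := ⟨o.hg, fun p hp => by
      obtain ⟨P, a, b⟩ := o.ex p hp
      exact ⟨P, ⟨a, fun h => (XK h).2.2 p hp b⟩, b⟩,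
    ⟨o.od.co, fun P h => o.od.od P h.1⟩, fun P h => o.y0 P h.1, fun P h => o.g0 P h.1⟩
  have gk : Gk l s {R | ξ R ≠ 0 ∧ Mv s R} := by
    obtain ⟨D, d1, d2, d3⟩ := gq
    refine ⟨D, d1, fun P k => ?_, fun μ H R k => ?_⟩
    · obtain ⟨a, b, ⟨i, e⟩, h⟩ := d2 k
      refine ⟨(pos P ⟨⟨a, fun x => (h χ χ0 χT (χX P x)).ne' χQ⟩, fun t => e ?_,
        fun p n w => e ?_⟩).ne', b⟩
      · exact Pq.I80.fr_l s y i ▸ Pq.I80.tv_ord pk.fm.rat.ind t _
      · exact ((Tb.dic80 c ρ K s y pk.fm.rat).2.1 P p w fun j x => n (o.od.co j p x)).2 i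
    · by_cases e : ∃ i, R.ord (s i) ≠ 0
      · exact d3 μ H R ⟨(rep.sup R k.1).1.1, k.2, e, fun φ φ0 a => (reg K c ρ s y (T \ X) Q ξ φ
          pk1.fm rep φ0 fun P x => a P x.1).2 R ((rep.nn R).lt_of_ne' k.1)⟩
      · simp [Tb.dt, show ∀ i, R.ord (s i) = 0 from fun i => by_contra fun n => e ⟨i, n⟩]
  obtain ⟨u₀, J₀, G0, cJ₀, od₀⟩ := hC₀ K c ρ s y (T \ X) ε G κ I Q ξ hε pk1 o1 rep pos gk
  obtain ⟨G', hG', G'0, pk2, back⟩ := nrm K c ρ s y (T \ X) d q ε G κ u₀ pk1 o.hg G0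
  obtain ⟨J, r, ρ', y', u, sub, cJ, eq, un1, un2, wi⟩ :=
    hC K c ρ s y (T \ X) _ I J₀ pk.dim pk1.fm cJ₀ od₀ o1.y0
  obtain ⟨e1, e2, e3, e4⟩ := eqf K c ρ s y (T \ X) _ _ eq
  obtain ⟨G'', hG'', G''0, et⟩ := e4 G' hG' G'0
  have pk3 := e1 _ _ _ _ _ pk2
  have hd : c + r + ρ' = d := by
    have := pk3.dim
    omega
  obtain ⟨-, -, -, f4, f5, -⟩ := Pq.fac60 c ρ K s y pk.fm.rat
  have od := e3 _ _ od₀
  have h := hW J.card K c r ρ' s y' u (T \ X) G'' _ Q ξ I J (by omega) (by omega)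
    ⟨by rw [hd, et]; exact pk3, hG'', G''0, e2 _ _ rep,
      fun P hP p hp _ a => pos P ⟨hP, (f5 P _ a).1, fun p' hp' a' =>
        hp' (Option.some.inj (f4 P _ _ a a') ▸ hp)⟩,
      ⟨fun i p h => sub (od.co i p h), fun P hP p hp => od.od P hP p fun h => hp (sub h)⟩,
      un1, un2, wi⟩ (gk.imp fun _ k => ⟨k.1.trans (by omega), k.2⟩)
  rw [et, funext eq.2.2.1] at h
  obtain ⟨m', hm'⟩ : m J.card ∣ ∏ j ∈ Finset.range (C + 1), m j :=
    Finset.dvd_prod_of_mem _ (by simpa using Nat.lt_succ_of_le cJ)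
  have m'0 : 0 < m' := Nat.pos_of_ne_zero fun z =>
    (Finset.prod_pos fun j _ => mp j).ne' (hm'.trans (by rw [z, mul_zero]))
  rw [hm']
  exact (rpr K q _ _ T _ κ Q pk.g0).1 X χ Xf χ0 χT χX χQ
    ((rpr K q _ _ (T \ X) _ κ Q pk.g0).2 m' m'0 (back _ _ _ h))

end Vale.Agent.P283R.Tl

end
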