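import Vale.Agent.P283R.Tb.All

/-!
# P283R, block TL: toric orbit spaces with a fibrewise bound for the rays, the statements
-/

open Set

noncomputable section

namespace Vale.Agent.P283R.Tl

open Vale.Agent.P287D Vale.Agent.P283M Cx Cy
open Vale.Agent.P283R.To (mon)
open Pq (Hm Hg tot Tv Hz At cz lam mu fr Pg ForR ForX)
open Wd (Sb sb Wv Ps Wx)
open Wc (Dr Ho Kt Rep Sec Av Lk Un Od Or Eqf Wi Ef Mo Gn Pd ForA ForB ForD)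

export Tb (dt Mv Ax Cm Du DIC CZL)

section defs

variable {K : Type} [Field K] [Algebra ℂ K] {ι : Type} {c ρ r : ℕ}

/-- the cone of `A` has at most `l` generators -/
def Gk (l : ℕ) (s : Fin c → K) (A : Set (Pl K)) : Prop :=
  ∃ D : Finset (Pl K), D.card ≤ l ∧ Du s D A

/-- the toric primes which are seen by `Q` -/
def Aq (s : Fin c → K) (T : Set (Pl K)) (Q : Pl K) : Set (Pl K) :=
  {P | P ∈ T ∧ Mv s P ∧ (∃ i, P.ord (s i) ≠ 0) ∧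
    ∀ χ : K, χ ≠ 0 → (∀ R ∈ T, 0 ≤ R.ord χ) → 0 < P.ord χ → 0 < Q.ord χ}

/-- the family `P` of the prime divisors, `w` selects those in the open set -/
structure Fm (s : Fin c → K) (y : Fin ρ → K) (w : ι → Prop) (P : ι → Pl K) : Prop where
  rat : D.Rat (fr s y)
  fin : ∀ a : K, {E | w E ∧ (P E).ord a ≠ 0}.Finite
  finc : {E | w E ∧ cz s y (P E) ≠ 0}.Finite
  inv : ∀ E, w E → ¬ Tv s y (P E) → ∀ G, Hg s y G → ∀ u, G u ≠ 0 →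
    (P E).ord (tot G) ≤ (P E).ord (G u)
  lau : ∀ φ : K, φ ≠ 0 → (∀ E, w E → Tv s y (P E) → 0 ≤ (P E).ord φ) → ∃ G, Hg s y G ∧ φ = tot G
  eqn : ∀ a : ι → ℤ, {E | a E ≠ 0}.Finite →
    ∃ φ : K, φ ≠ 0 ∧ ∀ E, w E → Tv s y (P E) → (P E).ord φ = a E
  kt : ∀ E, w E → Tv s y (P E) → cz s y (P E) = 0
  mis : {p : Pg c | ¬ ∃ E, w E ∧ At s (P E) (some p)}.Finite
  pg : ∀ E, w E → Mv s (P E) ∨ ∃ p, Ax s (P E) p

/-- the package -/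
structure Pk (d q : ℕ) (ε : ℝ) (s : Fin c → K) (y : Fin ρ → K) (T : Set (Pl K)) (g : K)
    (κ : Pl K → ℤ) : Prop where
  dim : c + ρ = d
  fm : Fm s y (· ∈ T) id
  g0 : g ≠ 0
  reg : ∀ P ∈ T, Tv s y P → 0 ≤ P.ord g ∧ κ P = 0
  fin : {P | P ∈ T ∧ κ P ≠ 0}.Finite
  eff : ∀ P ∈ T, q * cz s y P - P.ord g ≤ κ P
  hw : Pq.Hw ε q s y (· ∈ T) id g κ
  av : Av d q ε (cz s y) T g κ

/-- the wide state -/
structure Sc (W q : ℕ) (ε : ℝ) (s : Fin c → K) (y : Fin r → K) (u : Fin ρ → K) (T : Set (Pl K))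
    (G : (Fin (r + ρ) → ℤ) →₀ K) (κ : Pl K → ℤ) (Q : Pl K) (ξ : Pl K → ℝ) (I J : Finset (Pg c)) :
    Prop where
  pk : Pk (c + r + ρ) q ε s (Fin.append y u) T (tot G) κ
  hg : Hg s (Fin.append y u) G
  g0 : G 0 ≠ 0
  rep : Rep s (Fin.append y u) T Q ξ
  pos : ∀ P ∈ T, ∀ p ∈ I, p ∉ J → At s P (some p) → 0 < ξ P
  od : Od s (Fin.append y u) T J κ
  y1 : Un s T J y
  u0 : Un s T I u
  wi : Wi W s u T I J

end defs

/-- **ORD** -/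
def ORD : Prop := ForA fun _ _ _ _ _ s y T => ∀ d q ε g κ, Pk d q ε s y T g κ →
  ∃ G I, g = tot G ∧ Or s y T G κ I

/-- **CAR**: finiteness -/
def CAR : Prop := ForA fun _ _ _ _ _ s y T => ∀ J, Fm s y (· ∈ T) id → (Kt s y T J).Finite ∧
  ∃ f, Ef s T J f

/-- **GT**: Goldman and Tucker -/
def GT : Prop := ForA fun K _ _ _ _ s y T => ∀ G κ I (Q : Pl K), Fm s y (· ∈ T) id →
  Or s y T G κ I → (∀ a : K, a ≠ 0 → (∀ P ∈ T, 0 ≤ P.ord a) → 0 ≤ Q.ord a) →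
    ∃ (X : Set (Pl K)) (χ : K) (ξ : Pl K → ℝ), X.Finite ∧ X ⊆ Kt s y T I ∧ χ ≠ 0 ∧
      (∀ P ∈ T, 0 ≤ P.ord χ) ∧ (∀ P ∈ X, 0 < P.ord χ) ∧ Q.ord χ = 0 ∧ Rep s y (T \ X) Q ξ ∧
      ∀ P ∈ Kt s y (T \ X) I, 0 < ξ P

/-- **DRP**: invariant primes are dropped -/
def DRP : Prop := ForA fun K _ _ _ _ s y T => ∀ d q ε g κ (X : Set (Pl K)), Pk d q ε s y T g κ →
  X.Finite → (∀ P ∈ X, ¬ Tv s y P) → Pk d q ε s y (T \ X) g κ

/-- **PAGE**: few special pages -/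
def PAGE : Prop := ∀ l d q : ℕ, 0 < q → ∃ C : ℕ, ForA fun _ _ _ _ _ s y T => ∀ (ε : ℝ) G κ I Q ξ,
  0 < ε → Pk d q ε s y T (tot G) κ → Or s y T G κ I → Rep s y T Q ξ →
    (∀ P ∈ Kt s y T I, 0 < ξ P) → Gk l s {R | ξ R ≠ 0 ∧ Mv s R} →
    ∃ u J, G u ≠ 0 ∧ J.card ≤ C ∧ Od s y T J fun P => κ P + P.ord (G u)

/-- **NRM**: division by a term -/
def NRM : Prop := ForA fun _ _ _ _ _ s y T => ∀ d q ε G κ u, Pk d q ε s y T (tot G) κ → Hg s y G →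
  G u ≠ 0 → ∃ G', Hg s y G' ∧ G' 0 ≠ 0 ∧ Pk d q ε s y T (tot G') (fun P => κ P + P.ord (G u)) ∧
    ∀ m z Q, Sec q m z T (tot G') (fun P => κ P + P.ord (G u)) Q → Sec q m z T (tot G) κ Q

/-- **SPL**: the gap and the adapted frame -/
def SPL : Prop := ∀ (W : ℕ → ℕ) (d C₀ : ℕ), ∃ C : ℕ, ForA fun K _ _ c ρ s y T =>
  ∀ κ (I J₀ : Finset (Pg c)), c + ρ = d → Fm s y (· ∈ T) id → J₀.card ≤ C₀ → Od s y T J₀ κ →
    Un s T I y → ∃ (J : Finset (Pg c)) (r ρ' : ℕ) (y' : Fin r → K) (u : Fin ρ' → K), J₀ ⊆ J ∧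
      J.card ≤ C ∧ Eqf s y (Fin.append y' u) ∧ Un s T J y' ∧ Un s T I u ∧ Wi (W J.card) s u T I J

/-- **EQF**: change of the frame -/
def EQF : Prop := ForA fun K _ _ _ _ s y T => ∀ (ρ' : ℕ) (y' : Fin ρ' → K), Eqf s y y' →
  (∀ d q ε g κ, Pk d q ε s y T g κ → Pk d q ε s y' T g κ) ∧
    (∀ Q ξ, Rep s y T Q ξ → Rep s y' T Q ξ) ∧ (∀ J κ, Od s y T J κ → Od s y' T J κ) ∧
    ∀ G, Hg s y G → G 0 ≠ 0 → ∃ G', Hg s y' G' ∧ G' 0 ≠ 0 ∧ tot G' = tot G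

/-! ### the wide state -/

/-- **CA2**: Caratheodory in the wide state -/
def CA2 : Prop := ForB fun K _ _ _ r ρ s y u T => ∀ l W q ε G κ Q ξ I J,
  Sc W q ε s y u T G κ Q ξ I J → Gk l s {R | ξ R ≠ 0 ∧ Mv s R} → ∃ (ξ' : Pl K → ℝ) (t : Finset (Pl K)),
    Sc W q ε s y u T G κ Q ξ' I J ∧ t.card ≤ r + ρ + J.card + 1 + l ∧
      ∀ P ∈ Kt s (Fin.append y u) T J, ξ' P ≠ 0 → P ∈ t

/-- **REG**: regular functions at `Q` -/
def REG : Prop := ForA fun K _ _ _ _ s y T => ∀ Q ξ (φ : K), Fm s y (· ∈ T) id → Rep s y T Q ξ →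
  φ ≠ 0 → (∀ P ∈ T, 0 ≤ P.ord φ) → 0 ≤ Q.ord φ ∧ ∀ P, 0 < ξ P → 0 < P.ord φ → 0 < Q.ord φ

/-- **IND**: the primes over one page agree on the small field -/
def IND : Prop := ForB fun K _ _ _ _ _ s y u T => ∀ J κ, Fm s (Fin.append y u) (· ∈ T) id →
  Od s (Fin.append y u) T J κ → Un s T J y → ∀ p ∉ J, ∀ P ∈ T, ∀ P' ∈ T, At s P (some p) →
    At s P' (some p) → ∀ z : Sb (fr s y), z ≠ 0 → P.ord (z : K) = P'.ord (z : K)

/-- **GEN**: the generators -/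
def GEN : Prop := ForB fun K _ _ c r _ s y u T => ∀ J κ f (k : ℕ) (e : Fin k → Pl K),
  Fm s (Fin.append y u) (· ∈ T) id → Od s (Fin.append y u) T J κ → Un s T J y → Ef s T J f →
    Function.Injective e → range e = Kt s (Fin.append y u) T J →
    ∃ (E : ℕ) (s' : Fin E → Sb (fr s y)) (a' : Fin E → Fin k → ℤ),
      E ≤ k + 2 * (J.card + c + r + 1) ∧ Gn s y T J f e s' a'

/-- **PDX**: the pages exist -/
def PDX : Prop := ForB fun K _ _ _ _ _ s y u T => ∀ W I J (k : ℕ) (e : Fin k → Pl K),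
  Fm s (Fin.append y u) (· ∈ T) id → Wi W s u T I J → ∃ π, Pd s y u T I J e π ∧ π.Wid W

/-- **WV1** -/
def WV1 : Prop := ForB fun K _ _ _ _ _ s y u T => ∀ W q ε G κ Q ξ I J f (k N E : ℕ)
  (e : Fin k → Pl K) π (σ : Fin N → K) α (s' : Fin E → _) a', Sc W q ε s y u T G κ Q ξ I J →
    Function.Injective e → range e = Kt s (Fin.append y u) T J → Pd s y u T I J e π →
    Cox T (Dr e) σ α → Gn s y T J f e s' a' → Wv π u σ α s' a'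

/-- **WV2** -/
def WV2 : Prop := ForB fun K _ _ _ _ _ s y u T => ∀ W q ε G κ Q ξ I J (k N : ℕ)
  (e : Fin k → Pl K) π (σ : Fin N → K) α, 1 ≤ W → Sc W q ε s y u T G κ Q ξ I J →
    Function.Injective e → range e = Kt s (Fin.append y u) T J → Pd s y u T I J e π → π.Wid W →
    Cox T (Dr e) σ α → Ps π u σ α Q

/-- **MON**: few kept primes -/
def MON : Prop := ∀ (B q : ℕ) (ε : ℝ), 0 < q → 0 < ε → ∃ W m : ℕ, 2 ≤ m ∧
  ForB fun K _ _ c r ρ s y u T => ∀ G κ Q ξ I J f, c + r + ρ ≤ B → J.card ≤ B →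
    Sc W q ε s y u T G κ Q ξ I J → Ef s T J f → (Kt s (Fin.append y u) T J).ncard ≤ B →
    ∃ φ : K, Mo s y J f φ ∧ (∀ P ∈ Kt s (Fin.append y u) T J, m * κ P ≤ P.ord φ) ∧
      Q.ord (tot G ^ m * φ) < q * m * (cz s (Fin.append y u) Q + 1)

/-- **WID**: the wide state -/
def WID : Prop := ∀ (B q : ℕ) (ε : ℝ), 0 < q → 0 < ε → ∃ W m : ℕ, 2 ≤ m ∧
  ForB fun _ _ _ c r ρ s y u T => ∀ G κ Q ξ I J, c + r + ρ ≤ B → J.card ≤ B →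
    Sc W q ε s y u T G κ Q ξ I J → Gk B s {R | ξ R ≠ 0 ∧ Mv s R} →
    Sec q m (cz s (Fin.append y u)) T (tot G) κ Q

/-- **PQ**: the theorem at one place -/
def PQ : Prop := ∀ (l d q : ℕ) (ε : ℝ), 0 < q → 0 < ε → ∃ m : ℕ, 2 ≤ m ∧
  ForA fun K _ _ _ _ s y T => ∀ g κ (Q : Pl K), Pk d q ε s y T g κ →
    (∀ a : K, a ≠ 0 → (∀ P ∈ T, 0 ≤ P.ord a) → 0 ≤ Q.ord a) → Gk l s (Aq s T Q) →
    Sec q m (cz s y) T g κ Q

/-- **C2R** -/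
def C2R : Prop := DIC → CAR → CA2

/-- **W1R** -/
def W1R : Prop := IND → WV1

/-- **W2R** -/
def W2R : Prop := REG → WV2

/-- **MOR** -/
def MOR : Prop := CAR → GEN → PDX → WV1 → WV2 → MON

/-- **HLR**: integer Helly -/
def HLR : Prop := DRP → CAR → CA2 → MON → WID

end Vale.Agent.P283R.Tl
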