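import Vale.Agent.P283R.Tl.All
import Vale.Agent.P283R.Lz.On
import Vale.Agent.P283R.Lz.Wy

/-!
# P283R, block TY: toric orbit spaces, the scheme side
-/

open Set CategoryTheory AlgebraicGeometry

noncomputable section

namespace Vale.Agent.P283R.Tl

open Vale.Agent.P287D Vale.Agent.P283M Vale.Agent.P297Z Vale.Agent.P283M.Br Vale.Agent.P283R.Gl
open Pq (Tv cz CoY)

/-- **PQ0**: the theorem at one place, no bound for the rays -/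
def PQ0 : Prop := ∀ (d q : ℕ) (ε : ℝ), 0 < q → 0 < ε → ∃ m : ℕ, 2 ≤ m ∧
  Wc.ForA fun K _ _ _ _ s y T => ∀ g κ (Q : Pl K), Pk d q ε s y T g κ →
    (∀ a : K, a ≠ 0 → (∀ P ∈ T, 0 ≤ P.ord a) → 0 ≤ Q.ord a) → Wc.Sec q m (cz s y) T g κ Q

open Vale.Agent.P289 (Pt DForm dimension)
open Stm Stm.Var

/-- **the scheme side** -/
theorem sch0 (h0 : PQ0) (n q : ℕ) {ε : ℝ} (hq : 0 < q) (hε : 0 < ε) : ∃ M : ℕ, 1 ≤ M ∧
    ∀ (X Z : Var) (f : X.X ⟶ Z.X) (z : Pt Z.X) (V : Z.X.Opens) (ω : DForm ℂ X.K (n + 1))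
      (B : X.QDiv) (c ρ : ℕ) (s : Fin c → X.K) (y : Fin ρ → X.K), dimension X.str = (n + 1 : ℕ) →
      ω.Nonzero → Pair (ε ≤ ·) ⊤ ω B → (∀ E, ∃ m : ℤ, q * B E = m) → Contraction f →
      FanoType f ω → NefOver f (-logCan ω B) → IsClosed ({z} : Set (Pt Z.X)) → IsAffineOpen V →
      z ∈ V → CoY (f ⁻¹ᵁ V) s y → Tb.Ovm (f ⁻¹ᵁ V) s →
      HasKltComplement f ω B M z := by
  obtain ⟨m, m2, H⟩ := h0 (n + 1) q ε hq hε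
  refine ⟨q * m, Nat.mul_pos hq (by omega), fun X Z f z V ω B c ρ s y hd hω hB hr hf hF hn hz hV
    zV co ov => Cq.H42.sch (Nat.mul_pos hq (by omega)) (fun u Λ Γ Γ' hK a hT cf lc nf => ?_)
      hd hω hB hr hf hF hn hz hV zV⟩
  obtain ⟨x, hx⟩ := hf.2.2.1.surj z
  have hx' : x ∈ f ⁻¹ᵁ V := show f x ∈ V from hx ▸ zV
  obtain ⟨a1, a2, a3, a4, a5, a6, a7⟩ := Tb.fm96 co hx'
  have fm := fm_set (s := s) (y := y) ⟨a1, a2, a3, a4, a5, a6, a7,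
    Tb.misr96 Tb.dic80 c ρ X _ s y x co hx' ov, ov⟩ Pq.S10.pq_inj hT
  have dim : c + ρ = n + 1 := Nat.cast_injective (a1.ff.trdeg.symm.trans hK.trdeg)
  obtain ⟨-, -, -, -, -, j, j0, ec⟩ := Pq.czr _ _ _ s y a1
  refine Cq.H42.cpl (Tv := Tv s y) (Ho := Wc.Ho s y) (z := cz s y) hq hε m2 a
    ⟨⟨j, j0, dim ▸ ec⟩, fm.fin, fm.finc, fm.eqn, fm.kt, fun b b0 k Q => ?_⟩ cf lc nf
    fun g κ Q g0 h1 h2 h3 h4 h5 o => ?_
  · obtain ⟨G, hG, rfl⟩ := fm.lau b b0 k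
    obtain ⟨v, v0, e⟩ := (Pq.sums _ _ _ s y a1).2.1 G Q b0
    exact ⟨_, ⟨v0, v, hG v⟩, e, fun P t n => fm.inv P t n G hG v v0⟩
  · exact H X.K c ρ s y _ g κ Q ⟨dim, fm, g0, h1, h2, h3,
      fun Q ξ a b k => h4 Q ξ a b fun x ⟨x0, u, hx⟩ => k u x hx x0, h5⟩ o

end Vale.Agent.P283R.Tl

namespace Vale.Agent.P283R.Lz

open Sl Sl.Var

theorem on_ty0 (h0 : Tl.PQ0) : OnN fun _ X _ f _ _ z => ∃ V, z.In V ∧
    ∃ (c r : ℕ) (s : Fin c → X.K) (y : Fin r → X.K), Pq.CoY (X := X.o) (pre f V) s y ∧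
      Tb.Ovm (X := X.o) (pre f V) s := by
  intro d hd ε hε R hR
  obtain ⟨n, rfl⟩ : ∃ n, d = n + 1 := ⟨d - 1, by omega⟩
  obtain ⟨N, N1, H⟩ := Tl.sch0 h0 n (∏ r ∈ R, r.den) (Finset.prod_pos fun r _ => r.den_pos) hε
  refine ⟨N, N1, fun X Z f ω B z a b c e s u ⟨u1, u2, W, zW, c', r, s', y, k1, k2⟩ => ?_⟩
  obtain ⟨V, v0, hV, zV, k⟩ := Pq.S10.sum_hm (X := X.o) (Z := Z.o) s zW k1
  exact (has_iff f ω B N z).2 (H X.o Z.o f z V ω B c' r s' y a b ((pair_iff _ _ ω B).1 c)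
    (C3.den e) s ((fanoType_iff f ω).1 u1) ((nefOver_iff f _).1 u2) u hV zV k
    fun E i => k2 E (v0 i))

/-- orbit spaces which are toric or have few Cox generators -/
theorem on_ty_of (h0 : Tl.PQ0) (M : ℕ → ℕ) :
    OnN fun d _ _ f _ _ z => ∃ V, z.In V ∧ TTor (M d) (pre f V) := by
  intro d hd ε hε R hR
  obtain ⟨n, hn, H⟩ := ((on_ty0 h0).or (onN_oq M)) d hd ε hε R hR
  refine ⟨n, hn, fun X Z f ω B z a b c i s t ⟨u, v, V, p, Y, φ, r, y, q1, q2, q⟩ =>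
    H X Z f ω B z a b c i s t ⟨u, v, ?_⟩⟩
  obtain ⟨c', s', q3⟩ | q := q
  · obtain ⟨x, hx⟩ := s.2.2.1.surj z
    exact .inl ⟨V, p, c', r, _, y, Tl42.tor (x := x) (show f x ∈ V from hx ▸ p) q1 q2 q3⟩
  · exact .inr ⟨V, p, Y, φ, r, y, q1, q2, .inr q⟩

/-- the classes over an open neighbourhood -/
theorem on_open3y_of (h0 : Tl.PQ0) (M : ℕ → ℕ) : OnN fun d X _ f _ _ z => ∃ V, z.In V ∧
    (Sph (pre f V) ∅ ∨ TTor (M d) (pre f V) ∨ IsAffineOpen V ∧ ∃ (S : Var) (π : S.X ⟶ X.X),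
      FinQuot π ∧ Sph (pre (π ≫ f) V) {x | x.map (π ≫ f) = z}) :=
  (on_sp.or ((on_ty_of h0 M).or on_sf)).mono fun _ _ _ _ _ _ _ ⟨V, i, j⟩ =>
    j.imp (fun k => ⟨V, i, k⟩) fun k => k.imp (fun l => ⟨V, i, l⟩) fun l => ⟨V, i, l⟩

end Vale.Agent.P283R.Lz
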